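import Vale.Agent.P295.MathlibUsed
import Vale.Agent.P295.Defs

set_option linter.all false

section

open MvPolynomial

namespace Vale.Agent.P295.Full

/-- Local nilpotency of a derivation. -/
def IsLN {A : Type} [CommRing A] [Algebra ℂ A] (D : Derivation ℂ A A) : Prop :=
  ∀ a : A, ∃ n : ℕ, (⇑D)^[n] a = 0

/-- ℂ[x,y,z]. -/
abbrev A3 : Type := MvPolynomial (Fin 3) ℂ

/-- ℂ[b,v]. -/
abbrev P2 : Type := MvPolynomial (Fin 2) ℂ

section generic
variable {R : Type} [CommRing R]

/-- the polynomial F = z^2+z+xy(x-y) as a function -/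
def fF (x y z : R) : R := z ^ 2 + z + x * y * (x - y)
/-- partial derivatives of F -/
def fa1 (x y : R) : R := y * (2 * x - y)
def fa2 (x y : R) : R := x * (x - 2 * y)
def fa3 (z : R) : R := 2 * z + 1
/-- parametrization of F = 0 -/
def phx (b v : R) : R := v * (1 + b * (b - 1) * v)
def phy (b v : R) : R := b * phx b v + b + b * (b - 1) * v
def phz (b v : R) : R := (b + b * (b - 1) * v) * phx b v + b * (b - 1) * v
/-- three times b as a polynomial in x,y,z,d (d = b+v) -/
def sg (x y z d : R) : R :=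
  x ^ 4 - x ^ 2 * z * d + x * y * z + 2 * x * y ^ 2 + 2 * x * y ^ 2 * d - 4 * y ^ 3
    + 2 * y * z * d - 5 * x * z * d + 4 * y * z - 9 * x * z + 4 * y ^ 2 * d - 6 * y ^ 2
    + 3 * x * y + 9 * x ^ 2 - 7 * z - x ^ 3 * d - 2 * x * y * d + 6 * y * d + 5 * x ^ 3
    - 5 * x ^ 2 * d + 3 * y - 9 * x * d - x ^ 2 * y * d + 2 * x ^ 3 * y - 2 * x * y * z * d
    + 2 * y ^ 2 * z

theorem fF_ph (b v : R) : fF (phx b v) (phy b v) (phz b v) = 0 := by
  simp only [fF, phz, phx, phy]; ring

theorem sg_ph (b v : R) : sg (phx b v) (phy b v) (phz b v) (b + v) = 3 * b := by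
  simp only [sg, phx, phz, phy]; ring

end generic

/-- F = z^2+z+xy(x-y) -/
noncomputable def F : A3 := fF (X 0) (X 1) (X 2)
/-- leading form z^2+xy(x-y) -/
noncomputable def Fh : A3 := X 2 ^ 2 + X 0 * X 1 * (X 0 - X 1)

noncomputable def eta : A3 →ₐ[ℂ] P2 :=
  aeval ![phx (X 0) (X 1), phy (X 0) (X 1), phz (X 0) (X 1)]

noncomputable def etah : A3 →ₐ[ℂ] P2 :=
  aeval ![X 0 * (X 0 - 1) * X 1 ^ 2, X 0 * (X 0 * (X 0 - 1) * X 1 ^ 2),
    (X 0 * (X 0 - 1)) ^ 2 * X 1 ^ 3]

/-- weights (2,2,3) -/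
def wt : Fin 3 → ℤ := ![2, 2, 3]

end Vale.Agent.P295.Full
end

section

open MvPolynomial

namespace Vale.Agent.P295.Full

/-! ## T1: Step -/
/-- stable coordinate statement for 1-stable coordinates in n variables -/
def SCC (n : ℕ) : Prop :=
  ∀ f : MvPolynomial (Fin n) ℂ, IsStableCoordinateOfOrder 1 f → IsCoordinate f

/-- `ℂ[x_0..x_n] = ℂ[x_0..x_{n-1}][x_n]` -/
theorem step_exists_last (n : ℕ) : ∃ L : MvPolynomial (Fin (n + 1)) ℂ ≃ₐ[ℂ]
    Polynomial (MvPolynomial (Fin n) ℂ),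
    (∀ p, L (rename (Fin.castAdd 1) p) = Polynomial.C p) ∧ L (X (Fin.last n)) = Polynomial.X := by
  refine ⟨(renameEquiv ℂ (finRotate (n + 1))).trans (finSuccEquiv ℂ n), fun p => ?_, ?_⟩
  · have h : (((renameEquiv ℂ (finRotate (n + 1))).trans (finSuccEquiv ℂ n)).toAlgHom.comp
        (rename (Fin.castAdd 1) : MvPolynomial (Fin n) ℂ →ₐ[ℂ] _)) =
        Polynomial.CAlgHom := by
      apply MvPolynomial.algHom_ext
      intro i
      have h1 : finRotate (n + 1) (Fin.castAdd 1 i) = i.succ := by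
        rw [finRotate_apply]
        exact Fin.coeSucc_eq_succ
      simp only [AlgHom.comp_apply, rename_X]
      change finSuccEquiv ℂ n (renameEquiv ℂ (finRotate (n + 1)) (X (Fin.castAdd 1 i))) = _
      rw [renameEquiv_apply, rename_X, h1, finSuccEquiv_X_succ]
      rfl
    exact DFunLike.congr_fun h p
  · change finSuccEquiv ℂ n (renameEquiv ℂ (finRotate (n + 1)) (X (Fin.last n))) = _
    rw [renameEquiv_apply, rename_X, finRotate_last, finSuccEquiv_X_zero]

/-- any variable may be taken as the polynomial variable -/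
theorem step_exists_var (n : ℕ) (i : Fin (n + 1)) : ∃ L : MvPolynomial (Fin (n + 1)) ℂ ≃ₐ[ℂ]
    Polynomial (MvPolynomial (Fin n) ℂ), L (X i) = Polynomial.X := by
  refine ⟨(renameEquiv ℂ (Equiv.swap i 0)).trans (finSuccEquiv ℂ n), ?_⟩
  change finSuccEquiv ℂ n (renameEquiv ℂ (Equiv.swap i 0) (X i)) = _
  rw [renameEquiv_apply, rename_X, Equiv.swap_apply_left, finSuccEquiv_X_zero]

/-- the constant coefficient -/
noncomputable def step_cc (B : Type) [CommRing B] [Algebra ℂ B] : Polynomial B →ₐ[ℂ] B :=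
  (Polynomial.aeval (R := B) (0 : B)).restrictScalars ℂ

theorem step_cc_apply {B : Type} [CommRing B] [Algebra ℂ B] (p : Polynomial B) :
    step_cc B p = p.coeff 0 := by
  change Polynomial.aeval (R := B) (0 : B) p = _
  rw [Polynomial.coeff_zero_eq_aeval_zero]

theorem step_equiv_of_poly {A B : Type} [CommRing A] [Algebra ℂ A] [CommRing B] [Algebra ℂ B]
    (ψ : Polynomial A ≃ₐ[ℂ] Polynomial B) (hX : ψ Polynomial.X = Polynomial.X) :
    Nonempty (A ≃ₐ[ℂ] B) := by
  have key : ∀ {A B : Type} [CommRing A] [Algebra ℂ A] [CommRing B] [Algebra ℂ B]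
      (ψ : Polynomial A ≃ₐ[ℂ] Polynomial B), ψ Polynomial.X = Polynomial.X → ∀ a : A,
      (ψ.symm (Polynomial.C ((ψ (Polynomial.C a)).coeff 0))).coeff 0 = a := by
    intro A B _ _ _ _ ψ hX a
    have hX' : ψ.symm Polynomial.X = Polynomial.X := by rw [← hX, AlgEquiv.symm_apply_apply]
    have h1 := Polynomial.divX_mul_X_add (ψ (Polynomial.C a))
    have h2 := congrArg ψ.symm h1
    rw [map_add, map_mul, hX', AlgEquiv.symm_apply_apply] at h2
    have h3 := congrArg (fun p => Polynomial.coeff p 0) h2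
    simpa only [Polynomial.coeff_add, Polynomial.mul_coeff_zero, Polynomial.coeff_X_zero, mul_zero, zero_add,     Polynomial.coeff_C_zero] using h3
  have hX' : ψ.symm Polynomial.X = Polynomial.X := by rw [← hX, AlgEquiv.symm_apply_apply]
  refine ⟨AlgEquiv.ofAlgHom ((step_cc B).comp (ψ.toAlgHom.comp Polynomial.CAlgHom))
    ((step_cc A).comp (ψ.symm.toAlgHom.comp Polynomial.CAlgHom)) ?_ ?_⟩
  · ext b
    change step_cc B (ψ (Polynomial.C (step_cc A (ψ.symm (Polynomial.C b))))) = b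
    rw [step_cc_apply, step_cc_apply]
    exact key ψ.symm hX' b
  · ext a
    change step_cc A (ψ.symm (Polynomial.C (step_cc B (ψ (Polynomial.C a))))) = a
    rw [step_cc_apply, step_cc_apply]
    exact key ψ hX a

theorem step {A : Type} [CommRing A] [Algebra ℂ A] (n : ℕ) (h1 : SCC (n + 1)) (h2 : SCC n) (t : A)
    (e : Polynomial A ≃ₐ[ℂ] MvPolynomial (Fin (n + 1)) ℂ) (i : Fin (n + 1))
    (he : e (Polynomial.C t) = X i) :
    ∃ (e' : A ≃ₐ[ℂ] MvPolynomial (Fin n) ℂ) (j : Fin n), e' t = X j := by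
  -- first part
  obtain ⟨L, hL1, hL2⟩ := step_exists_last (n + 1)
  have hf : IsStableCoordinateOfOrder 1 (e Polynomial.X) := by
    refine ⟨Fin.last (n + 1), (L.trans ((Polynomial.mapAlgEquiv e.symm).trans
      (((Polynomial.Bivariate.swap (R := A)).restrictScalars ℂ).trans
        ((Polynomial.mapAlgEquiv e).trans L.symm)))), ?_⟩
    change L.symm (Polynomial.mapAlgEquiv e (Polynomial.Bivariate.swap (R := A)
      (Polynomial.mapAlgEquiv e.symm (L (rename (Fin.castAdd 1) (e Polynomial.X)))))) = _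
    rw [hL1]
    have e1 : Polynomial.mapAlgEquiv e.symm (Polynomial.C (e Polynomial.X)) =
        (Polynomial.C Polynomial.X : Polynomial (Polynomial A)) := by
      simp
    rw [e1, Polynomial.Bivariate.swap_X]
    have e2 : Polynomial.mapAlgEquiv e (Polynomial.X : Polynomial (Polynomial A)) =
        Polynomial.X := by simp
    rw [e2, ← hL2, AlgEquiv.symm_apply_apply]
  obtain ⟨i₀, φ, hφ⟩ := h1 _ hf
  obtain ⟨M, hM⟩ := step_exists_var n i₀
  obtain ⟨e2⟩ := step_equiv_of_poly (e.trans (φ.trans M)) (by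
    change M (φ (e Polynomial.X)) = Polynomial.X
    rw [hφ, hM])
  -- second part
  obtain ⟨L', hL1', hL2'⟩ := step_exists_last n
  have hg : IsStableCoordinateOfOrder 1 (e2 t) := by
    refine ⟨i, L'.trans ((Polynomial.mapAlgEquiv e2.symm).trans e), ?_⟩
    change e (Polynomial.mapAlgEquiv e2.symm (L' (rename (Fin.castAdd 1) (e2 t)))) = _
    rw [hL1']
    have e1 : Polynomial.mapAlgEquiv e2.symm (Polynomial.C (e2 t)) = Polynomial.C t := by
      simp
    rw [e1, he]
  obtain ⟨j, φ', hφ'⟩ := h2 _ hg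
  exact ⟨e2.trans φ', j, hφ'⟩

end Vale.Agent.P295.Full
end

section

namespace Vale.Agent.P295.Full

section generic
variable {R : Type} [CommRing R]

/-- second order term -/
def fQ (x y p q r t : R) : R :=
  r ^ 2 + y * p ^ 2 + 2 * x * p * q + t * p ^ 2 * q - 2 * y * p * q - x * q ^ 2 - t * p * q ^ 2

theorem fF_expand (x y z p q r t : R) :
    fF (x + t * p) (y + t * q) (z + t * r)
      = fF x y z + t * (fa1 x y * p + fa2 x y * q + fa3 z * r) + t ^ 2 * fQ x y p q r t := by
  simp only [fF, fa1, fa2, fa3, fQ]; ring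

theorem unimod (c x y z : R) (hc : 3 * c = 1) (hF : fF x y z = 0) :
    fa1 x y * (4 * c * x) + fa2 x y * (4 * c * y) + fa3 z * (2 * z + 1) = 1 := by
  simp only [fF] at hF
  simp only [fa1, fa2, fa3]
  linear_combination 4 * hF + (4 * x * y * (x - y)) * hc

theorem map_sg {R' : Type} [CommRing R'] (f : R →+* R') (x y z d : R) :
    f (sg x y z d) = sg (f x) (f y) (f z) (f d) := by
  simp only [sg, map_add, map_sub, map_pow, map_mul, map_ofNat]

theorem map_phx {R' : Type} [CommRing R'] (f : R →+* R') (b v : R) :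
    f (phx b v) = phx (f b) (f v) := by
  simp [phx]

theorem map_phy {R' : Type} [CommRing R'] (f : R →+* R') (b v : R) :
    f (phy b v) = phy (f b) (f v) := by
  simp [phy, phx]

theorem map_phz {R' : Type} [CommRing R'] (f : R →+* R') (b v : R) :
    f (phz b v) = phz (f b) (f v) := by
  simp [phz, phx]

theorem map_fF {R' : Type} [CommRing R'] (f : R →+* R') (x y z : R) :
    f (fF x y z) = fF (f x) (f y) (f z) := by
  simp only [fF, map_add, map_pow, map_mul, map_sub]

theorem map_fa1 {R' : Type} [CommRing R'] (f : R →+* R') (x y : R) :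
    f (fa1 x y) = fa1 (f x) (f y) := by
  simp [fa1, map_ofNat]

theorem map_fa2 {R' : Type} [CommRing R'] (f : R →+* R') (x y : R) :
    f (fa2 x y) = fa2 (f x) (f y) := by
  simp [fa2, map_ofNat]

theorem map_fa3 {R' : Type} [CommRing R'] (f : R →+* R') (z : R) :
    f (fa3 z) = fa3 (f z) := by
  simp [fa3, map_ofNat]

theorem map_fQ {R' : Type} [CommRing R'] (f : R →+* R') (x y p q r t : R) :
    f (fQ x y p q r t) = fQ (f x) (f y) (f p) (f q) (f r) (f t) := by
  simp [fQ, map_ofNat]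

theorem sg_dvd (t x y z d p q r e : R) :
    t ∣ sg (x + t * p) (y + t * q) (z + t * r) (d + t * e) - sg x y z d := by
  rw [← Ideal.mem_span_singleton, ← Ideal.Quotient.eq]
  have ht : Ideal.Quotient.mk (Ideal.span {t}) t = 0 :=
    Ideal.Quotient.eq_zero_iff_mem.2 (Ideal.mem_span_singleton_self t)
  rw [map_sg, map_sg]
  simp [ht]

/-! The vector `om` -/

/-- `a · al` -/
def dotA (b v p q r : R) : R :=
  fa1 (phx b v) (phy b v) * p + fa2 (phx b v) (phy b v) * q + fa3 (phz b v) * r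

theorem map_dotA {R' : Type} [CommRing R'] (f : R →+* R') (b v p q r : R) :
    f (dotA b v p q r) = dotA (f b) (f v) (f p) (f q) (f r) := by
  simp [dotA, map_fa1, map_fa2, map_fa3, map_phx, map_phy, map_phz]

def be1 (c b v : R) : R := 4 * c * phx b v
def be2 (c b v : R) : R := 4 * c * phy b v
def be3 (b v : R) : R := 2 * phz b v + 1

theorem dotA_be (c b v : R) (hc : 3 * c = 1) :
    dotA b v (be1 c b v) (be2 c b v) (be3 b v) = 1 :=
  unimod c _ _ _ hc (fF_ph b v)

theorem dotA_add_smul (b v p q r p' q' r' s : R) :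
    dotA b v (p + s * p') (q + s * q') (r + s * r')
      = dotA b v p q r + s * dotA b v p' q' r' := by
  simp only [dotA]; ring

theorem dotA_eta (c b v p q r m : R) (hc : 3 * c = 1) :
    dotA b v (p + (m - dotA b v p q r) * be1 c b v) (q + (m - dotA b v p q r) * be2 c b v)
      (r + (m - dotA b v p q r) * be3 b v) = m := by
  rw [dotA_add_smul, dotA_be c b v hc]; ring

end generic

end Vale.Agent.P295.Full
end

section

namespace Vale.Agent.P295.Full

section generic
variable {R : Type} [CommRing R]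

/-- the omega vector: `al + (m - a·al) be` -/
def gom1 (c b v p q r m : R) : R := p + (m - dotA b v p q r) * be1 c b v
def gom2 (c b v p q r m : R) : R := q + (m - dotA b v p q r) * be2 c b v
def gom3 (c b v p q r m : R) : R := r + (m - dotA b v p q r) * be3 b v

theorem dotA_gom (c b v p q r m : R) (hc : 3 * c = 1) :
    dotA b v (gom1 c b v p q r m) (gom2 c b v p q r m) (gom3 c b v p q r m) = m :=
  dotA_eta c b v p q r m hc

def gQ (c t b v p q r m : R) : R :=
  fQ (phx b v) (phy b v) (gom1 c b v p q r m) (gom2 c b v p q r m) (gom3 c b v p q r m) t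

def gU1 (c t b v p q r m : R) : R := phx b v + t * gom1 c b v p q r m
def gU2 (c t b v p q r m : R) : R := phy b v + t * gom2 c b v p q r m
def gU3 (c t b v p q r m : R) : R := phz b v + t * gom3 c b v p q r m

theorem fF_gU (c t b v p q r m : R) (hc : 3 * c = 1) :
    fF (gU1 c t b v p q r m) (gU2 c t b v p q r m) (gU3 c t b v p q r m)
      = t * (m + t * gQ c t b v p q r m) := by
  have h := dotA_gom c b v p q r m hc
  rw [dotA] at h
  rw [gU1, gU2, gU3, fF_expand, fF_ph, h, gQ]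
  ring

theorem map_be1 {R' : Type} [CommRing R'] (f : R →+* R') (c b v : R) :
    f (be1 c b v) = be1 (f c) (f b) (f v) := by
  simp [be1, map_phx, map_ofNat]
theorem map_be2 {R' : Type} [CommRing R'] (f : R →+* R') (c b v : R) :
    f (be2 c b v) = be2 (f c) (f b) (f v) := by
  simp [be2, map_phy, map_ofNat]
theorem map_be3 {R' : Type} [CommRing R'] (f : R →+* R') (b v : R) :
    f (be3 b v) = be3 (f b) (f v) := by
  simp [be3, map_phz, map_ofNat]
theorem map_gom1 {R' : Type} [CommRing R'] (f : R →+* R') (c b v p q r m : R) :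
    f (gom1 c b v p q r m) = gom1 (f c) (f b) (f v) (f p) (f q) (f r) (f m) := by
  simp [gom1, map_be1, map_dotA]
theorem map_gom2 {R' : Type} [CommRing R'] (f : R →+* R') (c b v p q r m : R) :
    f (gom2 c b v p q r m) = gom2 (f c) (f b) (f v) (f p) (f q) (f r) (f m) := by
  simp [gom2, map_be2, map_dotA]
theorem map_gom3 {R' : Type} [CommRing R'] (f : R →+* R') (c b v p q r m : R) :
    f (gom3 c b v p q r m) = gom3 (f c) (f b) (f v) (f p) (f q) (f r) (f m) := by
  simp only [gom3, map_add, map_mul, map_sub, map_dotA, map_be3]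
theorem map_gQ {R' : Type} [CommRing R'] (f : R →+* R') (c t b v p q r m : R) :
    f (gQ c t b v p q r m) = gQ (f c) (f t) (f b) (f v) (f p) (f q) (f r) (f m) := by
  simp [gQ, map_fQ, map_phx, map_phy, map_gom1, map_gom2, map_gom3]
theorem map_gU1 {R' : Type} [CommRing R'] (f : R →+* R') (c t b v p q r m : R) :
    f (gU1 c t b v p q r m) = gU1 (f c) (f t) (f b) (f v) (f p) (f q) (f r) (f m) := by
  simp [gU1, map_phx, map_gom1]
theorem map_gU2 {R' : Type} [CommRing R'] (f : R →+* R') (c t b v p q r m : R) :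
    f (gU2 c t b v p q r m) = gU2 (f c) (f t) (f b) (f v) (f p) (f q) (f r) (f m) := by
  simp [gU2, map_phy, map_gom2]
theorem map_gU3 {R' : Type} [CommRing R'] (f : R →+* R') (c t b v p q r m : R) :
    f (gU3 c t b v p q r m) = gU3 (f c) (f t) (f b) (f v) (f p) (f q) (f r) (f m) := by
  simp [gU3, map_phz, map_gom3]

/-! The inverse formulas. -/
def hb (c τ x y z d w0 : R) : R := c * sg x y z d + τ * w0
def hv (c τ x y z d w1 : R) : R := d - c * sg x y z d + τ * w1

/-- the key computation: `b, v` arbitrary, `x,y,z,d` with `τ d = F(x,y,z)`. -/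
theorem inv_key (c τ τi x y z d b v w : R) (hc : 3 * c = 1) (hτ : τ * τi = 1)
    (hd : τ * d = fF x y z) (o1 o2 o3 p q r ζ m : R)
    (ho1 : o1 = τi * (x - phx b v)) (ho2 : o2 = τi * (y - phy b v)) (ho3 : o3 = τi * (z - phz b v))
    (hp : p = gom1 c b v o1 o2 o3 w) (hq : q = gom2 c b v o1 o2 o3 w)
    (hr : r = gom3 c b v o1 o2 o3 w)
    (hζ : ζ = τi * (d - (b + v)) - fQ (phx b v) (phy b v) o1 o2 o3 τ)
    (hm : m = b + v + τ * ζ) :
    dotA b v p q r = w ∧ gU1 c τ b v p q r m = x ∧ gU2 c τ b v p q r m = y ∧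
      gU3 c τ b v p q r m = z ∧ m + τ * gQ c τ b v p q r m = d := by
  have e1 : x = phx b v + τ * o1 := by
    rw [ho1]; linear_combination (phx b v - x) * hτ
  have e2 : y = phy b v + τ * o2 := by
    rw [ho2]; linear_combination (phy b v - y) * hτ
  have e3 : z = phz b v + τ * o3 := by
    rw [ho3]; linear_combination (phz b v - z) * hτ
  have h1 : dotA b v p q r = w := by
    rw [hp, hq, hr]; exact dotA_gom c b v o1 o2 o3 w hc
  set Q := fQ (phx b v) (phy b v) o1 o2 o3 τ with hQ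
  have h2 : fF x y z = τ * dotA b v o1 o2 o3 + τ ^ 2 * Q := by
    conv_lhs => rw [e1, e2, e3]
    rw [fF_expand, fF_ph, dotA, hQ]
    ring
  have h3 : d = dotA b v o1 o2 o3 + τ * Q := by
    have h4 : τ * d = τ * (dotA b v o1 o2 o3 + τ * Q) := by
      rw [hd, h2]; ring
    calc d = τi * (τ * d) := by linear_combination (-d) * hτ
      _ = τi * (τ * (dotA b v o1 o2 o3 + τ * Q)) := by rw [h4]
      _ = dotA b v o1 o2 o3 + τ * Q := by
          linear_combination (dotA b v o1 o2 o3 + τ * Q) * hτ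
  have h5 : m = dotA b v o1 o2 o3 := by
    rw [hm, hζ]
    linear_combination h3 + (d - (b + v)) * hτ
  have g1 : gom1 c b v p q r m = o1 := by
    rw [gom1, h1, hp, gom1, h5]; ring
  have g2 : gom2 c b v p q r m = o2 := by
    rw [gom2, h1, hq, gom2, h5]; ring
  have g3 : gom3 c b v p q r m = o3 := by
    rw [gom3, h1, hr, gom3, h5]; ring
  refine ⟨h1, ?_, ?_, ?_, ?_⟩
  · rw [gU1, g1, e1]
  · rw [gU2, g2, e2]
  · rw [gU3, g3, e3]
  · rw [gQ, g1, g2, g3, h5, ← hQ, ← h3]

end generic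

end Vale.Agent.P295.Full
end

section

open MvPolynomial

namespace Vale.Agent.P295.Full

abbrev S7 : Type := MvPolynomial (Fin 7) ℂ

noncomputable def cS : S7 := C (1 / 3)

theorem three_cS : 3 * cS = 1 := by
  rw [cS, show (3 : S7) = C 3 from (map_ofNat C 3).symm, ← C_mul]
  norm_num

noncomputable def mS : S7 := X 1 + X 2 + X 0 * X 6
noncomputable def U1 : S7 := gU1 cS (X 0) (X 1) (X 2) (X 3) (X 4) (X 5) mS
noncomputable def U2 : S7 := gU2 cS (X 0) (X 1) (X 2) (X 3) (X 4) (X 5) mS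
noncomputable def U3 : S7 := gU3 cS (X 0) (X 1) (X 2) (X 3) (X 4) (X 5) mS
noncomputable def QS : S7 := gQ cS (X 0) (X 1) (X 2) (X 3) (X 4) (X 5) mS
noncomputable def DS : S7 := mS + X 0 * QS

theorem fF_U : fF U1 U2 U3 = X 0 * DS :=
  fF_gU cS (X 0) (X 1) (X 2) (X 3) (X 4) (X 5) mS three_cS

theorem exists_W0 : ∃ W : S7, X 0 * W = X 1 - cS * sg U1 U2 U3 DS := by
  have h := sg_dvd (X 0 : S7) (phx (X 1) (X 2)) (phy (X 1) (X 2)) (phz (X 1) (X 2)) (X 1 + X 2)
    (gom1 cS (X 1) (X 2) (X 3) (X 4) (X 5) mS) (gom2 cS (X 1) (X 2) (X 3) (X 4) (X 5) mS)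
    (gom3 cS (X 1) (X 2) (X 3) (X 4) (X 5) mS) (X 6 + QS)
  rw [sg_ph] at h
  obtain ⟨g, hg⟩ := h
  refine ⟨-(cS * g), ?_⟩
  have h1 : sg U1 U2 U3 DS = 3 * X 1 + X 0 * g := by
    rw [← hg, U1, U2, U3, gU1, gU2, gU3, DS, mS]
    ring_nf
  rw [h1]
  linear_combination (X 1) * three_cS

noncomputable def W0 : S7 := exists_W0.choose
theorem W0_spec : X 0 * W0 = X 1 - cS * sg U1 U2 U3 DS := exists_W0.choose_spec

theorem exists_W1 : ∃ W : S7, X 0 * W = X 2 - (DS - cS * sg U1 U2 U3 DS) := by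
  refine ⟨-(X 6 + QS) - W0, ?_⟩
  have := W0_spec
  rw [mul_sub, this, DS, mS]
  ring

noncomputable def W1 : S7 := -(X 6 + QS) - W0
theorem W1_spec : X 0 * W1 = X 2 - (DS - cS * sg U1 U2 U3 DS) := by
  have := W0_spec
  rw [W1, mul_sub, this, DS, mS]
  ring

noncomputable def W2 : S7 := dotA (X 1) (X 2) (X 3) (X 4) (X 5)

/-- the map out of `S7`. -/
theorem exists_Xi {M : Type} [CommRing M] [Algebra ℂ M] (τ τi x y z d w0 w1 w2 : M)
    (hτ : τ * τi = 1) (hd : τ * d = fF x y z) :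
    ∃ Ξ : S7 →ₐ[ℂ] M, Ξ (X 0) = τ ∧ Ξ U1 = x ∧ Ξ U2 = y ∧ Ξ U3 = z ∧ Ξ DS = d ∧
      Ξ W0 = w0 ∧ Ξ W1 = w1 ∧ Ξ W2 = w2 := by
  set c : M := algebraMap ℂ M (1 / 3) with hcdef
  have hc : 3 * c = 1 := by
    rw [hcdef, show (3 : M) = algebraMap ℂ M 3 from (map_ofNat _ 3).symm, ← map_mul]
    norm_num
  set b : M := hb c τ x y z d w0 with hbdef
  set v : M := hv c τ x y z d w1 with hvdef
  set o1 : M := τi * (x - phx b v) with ho1
  set o2 : M := τi * (y - phy b v) with ho2
  set o3 : M := τi * (z - phz b v) with ho3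
  set p : M := gom1 c b v o1 o2 o3 w2 with hp
  set q : M := gom2 c b v o1 o2 o3 w2 with hq
  set r : M := gom3 c b v o1 o2 o3 w2 with hr
  set ζ : M := τi * (d - (b + v)) - fQ (phx b v) (phy b v) o1 o2 o3 τ with hζ
  obtain ⟨k1, k2, k3, k4, k5⟩ := inv_key c τ τi x y z d b v w2 hc hτ hd o1 o2 o3 p q r ζ
    (b + v + τ * ζ) ho1 ho2 ho3 hp hq hr hζ rfl
  let Ξ : S7 →ₐ[ℂ] M := aeval ![τ, b, v, p, q, r, ζ]
  have x0 : Ξ (X 0) = τ := by simp [Ξ]
  have x1 : Ξ (X 1) = b := by simp [Ξ]
  have x2 : Ξ (X 2) = v := by simp [Ξ]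
  have x3 : Ξ (X 3) = p := by simp [Ξ]
  have x4 : Ξ (X 4) = q := by simp [Ξ]
  have x5 : Ξ (X 5) = r := by simp [Ξ]
  have x6 : Ξ (X 6) = ζ := by simp [Ξ]
  have xc : Ξ cS = c := by
    rw [cS, hcdef]; exact Ξ.commutes (1 / 3)
  have xm : Ξ mS = b + v + τ * ζ := by simp [mS, x0, x1, x2, x6]
  have y1 : Ξ U1 = x := by
    have := map_gU1 (Ξ : S7 →+* M) cS (X 0) (X 1) (X 2) (X 3) (X 4) (X 5) mS
    simp only [RingHom.coe_coe, xc, x0, x1, x2, x3, x4, x5, xm] at this
    rw [U1, this, k2]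
  have y2 : Ξ U2 = y := by
    have := map_gU2 (Ξ : S7 →+* M) cS (X 0) (X 1) (X 2) (X 3) (X 4) (X 5) mS
    simp only [RingHom.coe_coe, xc, x0, x1, x2, x3, x4, x5, xm] at this
    rw [U2, this, k3]
  have y3 : Ξ U3 = z := by
    have := map_gU3 (Ξ : S7 →+* M) cS (X 0) (X 1) (X 2) (X 3) (X 4) (X 5) mS
    simp only [RingHom.coe_coe, xc, x0, x1, x2, x3, x4, x5, xm] at this
    rw [U3, this, k4]
  have yQ : Ξ QS = gQ c τ b v p q r (b + v + τ * ζ) := by
    have := map_gQ (Ξ : S7 →+* M) cS (X 0) (X 1) (X 2) (X 3) (X 4) (X 5) mS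
    simp only [RingHom.coe_coe, xc, x0, x1, x2, x3, x4, x5, xm] at this
    rw [QS, this]
  have yd : Ξ DS = d := by
    rw [DS, map_add, map_mul, xm, x0, yQ, k5]
  have ysg : Ξ (sg U1 U2 U3 DS) = sg x y z d := by
    have := map_sg (Ξ : S7 →+* M) U1 U2 U3 DS
    simp only [RingHom.coe_coe, y1, y2, y3, yd] at this
    exact this
  have yw2 : Ξ W2 = w2 := by
    have := map_dotA (Ξ : S7 →+* M) (X 1) (X 2) (X 3) (X 4) (X 5)
    simp only [RingHom.coe_coe, x1, x2, x3, x4, x5] at this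
    rw [W2, this, k1]
  have yw0 : Ξ W0 = w0 := by
    have h := congrArg Ξ W0_spec
    rw [map_mul, x0, map_sub, x1, map_mul, xc, ysg, hbdef, hb] at h
    calc Ξ W0 = τi * (τ * Ξ W0) := by linear_combination (-Ξ W0) * hτ
      _ = w0 := by rw [h]; linear_combination w0 * hτ
  have yw1 : Ξ W1 = w1 := by
    have h := congrArg Ξ W1_spec
    rw [map_mul, x0, map_sub, x2, map_sub, yd, map_mul, xc, ysg, hvdef, hv] at h
    calc Ξ W1 = τi * (τ * Ξ W1) := by linear_combination (-Ξ W1) * hτ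
      _ = w1 := by rw [h]; linear_combination w1 * hτ
  exact ⟨Ξ, x0, y1, y2, y3, yd, yw0, yw1, yw2⟩

end Vale.Agent.P295.Full
end

section

open MvPolynomial

namespace Vale.Agent.P295.Full

/-- the map `ℂ[x,y,z][t] → S`. -/
noncomputable def uU : A3 →ₐ[ℂ] S7 := aeval ![U1, U2, U3]

noncomputable def u7 : Polynomial A3 →ₐ[ℂ] S7 :=
  Polynomial.eval₂AlgHom uU (X 0) (fun _ => Commute.all _ _)

theorem u7_apply (f : Polynomial A3) : u7 f = Polynomial.eval₂ (uU : A3 →+* S7) (X 0) f := rfl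

theorem u7_X : u7 Polynomial.X = X 0 := by
  rw [u7_apply, Polynomial.eval₂_X]

theorem u7_C (f : A3) : u7 (Polynomial.C f) = uU f := by
  rw [u7_apply, Polynomial.eval₂_C]; rfl

theorem uU_X0 : uU (X 0) = U1 := by simp [uU]
theorem uU_X1 : uU (X 1) = U2 := by simp [uU]
theorem uU_X2 : uU (X 2) = U3 := by simp [uU]

theorem uU_F : uU F = X 0 * DS := by
  have := map_fF (uU : A3 →+* S7) (X 0) (X 1) (X 2)
  simp only [RingHom.coe_coe, uU_X0, uU_X1, uU_X2] at this
  rw [F, this, fF_U]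

/-- The ring `B`. -/
noncomputable def BB : Subalgebra ℂ S7 where
  carrier := {s | ∃ (n : ℕ) (f : Polynomial A3), X 0 ^ n * s = u7 f}
  mul_mem' := by
    rintro a b ⟨n, f, hf⟩ ⟨m, g, hg⟩
    refine ⟨n + m, f * g, ?_⟩
    rw [map_mul, ← hf, ← hg]; ring
  add_mem' := by
    rintro a b ⟨n, f, hf⟩ ⟨m, g, hg⟩
    refine ⟨n + m, Polynomial.X ^ m * f + Polynomial.X ^ n * g, ?_⟩
    rw [map_add, map_mul, map_mul, map_pow, map_pow, u7_X, ← hf, ← hg]; ring
  algebraMap_mem' := by
    intro r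
    exact ⟨0, algebraMap ℂ _ r, by rw [pow_zero, one_mul, AlgHom.commutes]⟩

theorem mem_BB (s : S7) : s ∈ BB ↔ ∃ (n : ℕ) (f : Polynomial A3), X 0 ^ n * s = u7 f := Iff.rfl

theorem u7_mem (f : Polynomial A3) : u7 f ∈ BB := ⟨0, f, by simp⟩

theorem X0_mem : (X 0 : S7) ∈ BB := by
  rw [← u7_X]; exact u7_mem _

theorem BB_div (s : S7) (h : X 0 * s ∈ BB) : s ∈ BB := by
  obtain ⟨n, f, hf⟩ := h
  exact ⟨n + 1, f, by rw [← hf]; ring⟩

theorem U1_mem : U1 ∈ BB := by rw [← uU_X0, ← u7_C]; exact u7_mem _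
theorem U2_mem : U2 ∈ BB := by rw [← uU_X1, ← u7_C]; exact u7_mem _
theorem U3_mem : U3 ∈ BB := by rw [← uU_X2, ← u7_C]; exact u7_mem _
theorem DS_mem : DS ∈ BB := ⟨1, Polynomial.C F, by rw [u7_C, uU_F, pow_one]⟩

section closure
variable {E : Subalgebra ℂ S7}

theorem sg_mem {x y z d : S7} (hx : x ∈ E) (hy : y ∈ E) (hz : z ∈ E) (hd : d ∈ E) :
    sg x y z d ∈ E := by
  have h := map_sg (E.val : E →+* S7) ⟨x, hx⟩ ⟨y, hy⟩ ⟨z, hz⟩ ⟨d, hd⟩
  simp only [RingHom.coe_coe, Subalgebra.coe_val] at h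
  rw [← h]; exact Subtype.property _

theorem phx_mem {b v : S7} (hb : b ∈ E) (hv : v ∈ E) : phx b v ∈ E := by
  have h := map_phx (E.val : E →+* S7) ⟨b, hb⟩ ⟨v, hv⟩
  simp only [RingHom.coe_coe, Subalgebra.coe_val] at h
  rw [← h]; exact Subtype.property _

theorem phy_mem {b v : S7} (hb : b ∈ E) (hv : v ∈ E) : phy b v ∈ E := by
  have h := map_phy (E.val : E →+* S7) ⟨b, hb⟩ ⟨v, hv⟩
  simp only [RingHom.coe_coe, Subalgebra.coe_val] at h
  rw [← h]; exact Subtype.property _

theorem phz_mem {b v : S7} (hb : b ∈ E) (hv : v ∈ E) : phz b v ∈ E := by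
  have h := map_phz (E.val : E →+* S7) ⟨b, hb⟩ ⟨v, hv⟩
  simp only [RingHom.coe_coe, Subalgebra.coe_val] at h
  rw [← h]; exact Subtype.property _

theorem dotA_mem {b v p q r : S7} (hb : b ∈ E) (hv : v ∈ E) (hp : p ∈ E) (hq : q ∈ E)
    (hr : r ∈ E) : dotA b v p q r ∈ E := by
  have h := map_dotA (E.val : E →+* S7) ⟨b, hb⟩ ⟨v, hv⟩ ⟨p, hp⟩ ⟨q, hq⟩ ⟨r, hr⟩
  simp only [RingHom.coe_coe, Subalgebra.coe_val] at h
  rw [← h]; exact Subtype.property _

theorem fQ_mem {x y p q r t : S7} (hx : x ∈ E) (hy : y ∈ E) (hp : p ∈ E) (hq : q ∈ E)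
    (hr : r ∈ E) (ht : t ∈ E) : fQ x y p q r t ∈ E := by
  have h := map_fQ (E.val : E →+* S7) ⟨x, hx⟩ ⟨y, hy⟩ ⟨p, hp⟩ ⟨q, hq⟩ ⟨r, hr⟩ ⟨t, ht⟩
  simp only [RingHom.coe_coe, Subalgebra.coe_val] at h
  rw [← h]; exact Subtype.property _

theorem cS_mem : cS ∈ E := by
  rw [cS]; exact Subalgebra.algebraMap_mem E (1 / 3)

theorem be1_mem {b v : S7} (hb : b ∈ E) (hv : v ∈ E) : be1 cS b v ∈ E := by
  have h := map_be1 (E.val : E →+* S7) ⟨cS, cS_mem⟩ ⟨b, hb⟩ ⟨v, hv⟩
  simp only [RingHom.coe_coe, Subalgebra.coe_val] at h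
  rw [← h]; exact Subtype.property _

theorem be2_mem {b v : S7} (hb : b ∈ E) (hv : v ∈ E) : be2 cS b v ∈ E := by
  have h := map_be2 (E.val : E →+* S7) ⟨cS, cS_mem⟩ ⟨b, hb⟩ ⟨v, hv⟩
  simp only [RingHom.coe_coe, Subalgebra.coe_val] at h
  rw [← h]; exact Subtype.property _

theorem be3_mem {b v : S7} (hb : b ∈ E) (hv : v ∈ E) : be3 b v ∈ E := by
  have h := map_be3 (E.val : E →+* S7) ⟨b, hb⟩ ⟨v, hv⟩
  simp only [RingHom.coe_coe, Subalgebra.coe_val] at h
  rw [← h]; exact Subtype.property _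

end closure

/-! ### Injectivity -/

noncomputable def Ws : Fin 3 → S7 := ![W0, W1, W2]

/-- fraction field of `ℂ[x,y,z][t]` -/
abbrev KK : Type := FractionRing (Polynomial A3)

noncomputable def tauK : KK := algebraMap (Polynomial A3) KK Polynomial.X

theorem tauK_ne : tauK ≠ 0 := by
  rw [tauK, Ne, map_eq_zero_iff _ (IsFractionRing.injective (Polynomial A3) KK)]
  exact Polynomial.X_ne_zero

theorem exists_XiK : ∃ Ξ : S7 →ₐ[ℂ] MvPolynomial (Fin 3) KK,
    (∀ f : Polynomial A3, Ξ (u7 f) = C (algebraMap (Polynomial A3) KK f)) ∧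
    (∀ i, Ξ (Ws i) = X i) := by
  let g : Polynomial A3 →ₐ[ℂ] MvPolynomial (Fin 3) KK :=
    (IsScalarTower.toAlgHom ℂ KK (MvPolynomial (Fin 3) KK)).comp
      (IsScalarTower.toAlgHom ℂ (Polynomial A3) KK)
  have hg : ∀ f, g f = C (algebraMap (Polynomial A3) KK f) := fun f => rfl
  obtain ⟨Ξ, h0, h1, h2, h3, h4, h5, h6, h7⟩ :=
    exists_Xi (M := MvPolynomial (Fin 3) KK) (g Polynomial.X) (C tauK⁻¹)
      (g (Polynomial.C (X 0))) (g (Polynomial.C (X 1))) (g (Polynomial.C (X 2)))
      (C (tauK⁻¹) * g (Polynomial.C F)) (X 0) (X 1) (X 2)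
      (by
        rw [hg, ← C_mul]
        have : algebraMap (Polynomial A3) KK Polynomial.X * tauK⁻¹ = 1 := mul_inv_cancel₀ tauK_ne
        rw [this, C_1])
      (by
        rw [← mul_assoc]
        have h1 : g Polynomial.X * C (tauK⁻¹) = 1 := by
          rw [hg, ← C_mul]
          have : algebraMap (Polynomial A3) KK Polynomial.X * tauK⁻¹ = 1 :=
            mul_inv_cancel₀ tauK_ne
          rw [this, C_1]
        rw [h1, one_mul]
        have := map_fF ((g : Polynomial A3 →+* MvPolynomial (Fin 3) KK).comp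
          (Polynomial.C : A3 →+* Polynomial A3)) (X 0) (X 1) (X 2)
        exact this)
  refine ⟨Ξ, ?_, ?_⟩
  · intro f
    have key : Ξ.comp u7 = g := by
      apply Polynomial.algHom_ext'
      · apply MvPolynomial.algHom_ext
        intro i
        fin_cases i
        · change Ξ (u7 (Polynomial.C (X 0))) = g (Polynomial.C (X 0))
          rw [u7_C, uU_X0, h1]
        · change Ξ (u7 (Polynomial.C (X 1))) = g (Polynomial.C (X 1))
          rw [u7_C, uU_X1, h2]
        · change Ξ (u7 (Polynomial.C (X 2))) = g (Polynomial.C (X 2))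
          rw [u7_C, uU_X2, h3]
      · change Ξ (u7 Polynomial.X) = g Polynomial.X
        rw [u7_X, h0]
    rw [← hg, ← key]; rfl
  · intro i
    fin_cases i
    · exact h5
    · exact h6
    · exact h7

theorem u7_injective : Function.Injective u7 := by
  obtain ⟨Ξ, h, -⟩ := exists_XiK
  intro f g hfg
  have := congrArg Ξ hfg
  rw [h, h] at this
  exact IsFractionRing.injective (Polynomial A3) KK (C_injective _ _ this)

theorem aeval_Ws_injective :
    Function.Injective (aeval (R := BB) Ws : MvPolynomial (Fin 3) BB →ₐ[BB] S7) := by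
  obtain ⟨Ξ, h, hW⟩ := exists_XiK
  -- coefficients
  have hB : ∀ s : BB, ∃ k : KK, Ξ (s : S7) = C k := by
    rintro ⟨s, n, f, hf⟩
    refine ⟨(tauK⁻¹) ^ n * algebraMap (Polynomial A3) KK f, ?_⟩
    have h1 := congrArg Ξ hf
    rw [map_mul, map_pow, ← u7_X, h, h] at h1
    change Ξ s = _
    have h2 : C (tauK⁻¹ ^ n) * (C (tauK) ^ n * Ξ s) = Ξ s := by
      rw [← mul_assoc, ← C_pow, ← C_mul, ← mul_pow, inv_mul_cancel₀ tauK_ne, one_pow, C_1,
        one_mul]
    rw [← h2, C_mul]
    congr 1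
  let ι : BB →+* KK := (constantCoeff.comp (Ξ : S7 →+* MvPolynomial (Fin 3) KK)).comp
    (BB.val : BB →+* S7)
  have hι : ∀ s : BB, Ξ (s : S7) = C (ι s) := by
    intro s
    obtain ⟨k, hk⟩ := hB s
    have : ι s = k := by
      change constantCoeff (Ξ (s : S7)) = k
      rw [hk, constantCoeff_C]
    rw [this, hk]
  have hιinj : Function.Injective ι := by
    rw [injective_iff_map_eq_zero]
    rintro ⟨s, n, f, hf⟩ hs
    have h1 := hι ⟨s, n, f, hf⟩
    rw [hs, C_0] at h1
    have h2 := congrArg Ξ hf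
    rw [map_mul, h] at h2
    change Ξ s = 0 at h1
    rw [h1, mul_zero] at h2
    have h3 : f = 0 := by
      apply IsFractionRing.injective (Polynomial A3) KK
      rw [map_zero]
      exact C_injective (Fin 3) KK (by rw [← h2, C_0])
    rw [h3, map_zero] at hf
    have h4 : s = 0 := by
      rcases mul_eq_zero.1 hf with h5 | h5
      · exact absurd h5 (pow_ne_zero n (X_ne_zero 0))
      · exact h5
    exact Subtype.ext h4
  have hcomp : ((Ξ : S7 →+* MvPolynomial (Fin 3) KK).comp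
      (aeval (R := BB) Ws : MvPolynomial (Fin 3) BB →ₐ[BB] S7).toRingHom) = MvPolynomial.map ι := by
    apply MvPolynomial.ringHom_ext
    · intro s
      change Ξ (aeval Ws (C s)) = _
      rw [aeval_C, map_C]
      exact hι s
    · intro i
      change Ξ (aeval Ws (X i)) = _
      rw [aeval_X, map_X, hW]
  intro p q hpq
  apply MvPolynomial.map_injective ι hιinj
  rw [← hcomp]
  change Ξ (aeval Ws p) = Ξ (aeval Ws q)
  exact congrArg Ξ hpq

end Vale.Agent.P295.Full
end

section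

open MvPolynomial

namespace Vale.Agent.P295.Full

/-- `B[w]` as a ℂ-subalgebra. -/
noncomputable def BW : Subalgebra ℂ S7 :=
  ((aeval (R := BB) Ws : MvPolynomial (Fin 3) BB →ₐ[BB] S7).restrictScalars ℂ).range

theorem BB_le_BW : BB ≤ BW := by
  intro s hs
  refine ⟨C ⟨s, hs⟩, ?_⟩
  change aeval Ws (C (⟨s, hs⟩ : BB)) = s
  rw [aeval_C]; rfl

theorem Ws_mem (i : Fin 3) : Ws i ∈ BW := by
  refine ⟨X i, ?_⟩
  change aeval Ws (X i) = Ws i
  rw [aeval_X]

theorem W0_mem : W0 ∈ BW := Ws_mem 0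
theorem W1_mem : W1 ∈ BW := Ws_mem 1
theorem W2_mem : W2 ∈ BW := Ws_mem 2

/-- `B + t B[w]` -/
noncomputable def EE : Subalgebra ℂ S7 where
  carrier := {s | ∃ c ∈ BB, ∃ g ∈ BW, s = c + X 0 * g}
  mul_mem' := by
    rintro a b ⟨c, hc, g, hg, rfl⟩ ⟨c', hc', g', hg', rfl⟩
    refine ⟨c * c', BB.mul_mem hc hc', c * g' + c' * g + X 0 * g * g', ?_, by ring⟩
    exact BW.add_mem (BW.add_mem (BW.mul_mem (BB_le_BW hc) hg') (BW.mul_mem (BB_le_BW hc') hg))
      (BW.mul_mem (BW.mul_mem (BB_le_BW X0_mem) hg) hg')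
  add_mem' := by
    rintro a b ⟨c, hc, g, hg, rfl⟩ ⟨c', hc', g', hg', rfl⟩
    exact ⟨c + c', BB.add_mem hc hc', g + g', BW.add_mem hg hg', by ring⟩
  algebraMap_mem' := by
    intro r
    exact ⟨algebraMap ℂ S7 r, BB.algebraMap_mem r, 0, BW.zero_mem, by ring⟩

theorem BB_le_EE : BB ≤ EE := fun s hs => ⟨s, hs, 0, BW.zero_mem, by ring⟩

theorem EE_le_BW : EE ≤ BW := by
  rintro s ⟨c, hc, g, hg, rfl⟩
  exact BW.add_mem (BB_le_BW hc) (BW.mul_mem (BB_le_BW X0_mem) hg)

theorem EE_div (s : S7) (h : X 0 * s ∈ EE) : s ∈ BW := by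
  obtain ⟨c, hc, g, hg, h⟩ := h
  have h1 : X 0 * (s - g) = c := by rw [mul_sub, h]; ring
  have h2 : s - g ∈ BB := BB_div _ (by rw [h1]; exact hc)
  have h3 : s = (s - g) + g := by ring
  rw [h3]
  exact BW.add_mem (BB_le_BW h2) hg

theorem X1_mem : (X 1 : S7) ∈ EE := by
  refine ⟨cS * sg U1 U2 U3 DS, BB.mul_mem cS_mem (sg_mem U1_mem U2_mem U3_mem DS_mem), W0, W0_mem,
    ?_⟩
  rw [W0_spec]; ring

theorem X2_mem : (X 2 : S7) ∈ EE := by
  refine ⟨DS - cS * sg U1 U2 U3 DS,
    BB.sub_mem DS_mem (BB.mul_mem cS_mem (sg_mem U1_mem U2_mem U3_mem DS_mem)), W1, W1_mem,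
    ?_⟩
  rw [W1_spec]; ring

noncomputable def O1 : S7 := gom1 cS (X 1) (X 2) (X 3) (X 4) (X 5) mS
noncomputable def O2 : S7 := gom2 cS (X 1) (X 2) (X 3) (X 4) (X 5) mS
noncomputable def O3 : S7 := gom3 cS (X 1) (X 2) (X 3) (X 4) (X 5) mS

theorem O1_mem : O1 ∈ BW := by
  apply EE_div
  have h : X 0 * O1 = U1 - phx (X 1) (X 2) := by rw [U1, gU1, O1]; ring
  rw [h]
  exact EE.sub_mem (BB_le_EE U1_mem) (phx_mem X1_mem X2_mem)

theorem O2_mem : O2 ∈ BW := by
  apply EE_div
  have h : X 0 * O2 = U2 - phy (X 1) (X 2) := by rw [U2, gU2, O2]; ring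
  rw [h]
  exact EE.sub_mem (BB_le_EE U2_mem) (phy_mem X1_mem X2_mem)

theorem O3_mem : O3 ∈ BW := by
  apply EE_div
  have h : X 0 * O3 = U3 - phz (X 1) (X 2) := by rw [U3, gU3, O3]; ring
  rw [h]
  exact EE.sub_mem (BB_le_EE U3_mem) (phz_mem X1_mem X2_mem)

theorem dotA_O : dotA (X 1) (X 2) O1 O2 O3 = mS :=
  dotA_gom cS (X 1) (X 2) (X 3) (X 4) (X 5) mS three_cS

theorem mS_mem : mS ∈ BW := by
  rw [← dotA_O]
  exact dotA_mem (EE_le_BW X1_mem) (EE_le_BW X2_mem) O1_mem O2_mem O3_mem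

theorem X3_mem : (X 3 : S7) ∈ BW := by
  have h : (X 3 : S7) = O1 - (mS - W2) * be1 cS (X 1) (X 2) := by rw [O1, gom1, W2]; ring
  rw [h]
  exact BW.sub_mem O1_mem (BW.mul_mem (BW.sub_mem mS_mem W2_mem)
    (be1_mem (EE_le_BW X1_mem) (EE_le_BW X2_mem)))

theorem X4_mem : (X 4 : S7) ∈ BW := by
  have h : (X 4 : S7) = O2 - (mS - W2) * be2 cS (X 1) (X 2) := by rw [O2, gom2, W2]; ring
  rw [h]
  exact BW.sub_mem O2_mem (BW.mul_mem (BW.sub_mem mS_mem W2_mem)
    (be2_mem (EE_le_BW X1_mem) (EE_le_BW X2_mem)))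

theorem X5_mem : (X 5 : S7) ∈ BW := by
  have h : (X 5 : S7) = O3 - (mS - W2) * be3 (X 1) (X 2) := by rw [O3, gom3, W2]; ring
  rw [h]
  exact BW.sub_mem O3_mem (BW.mul_mem (BW.sub_mem mS_mem W2_mem)
    (be3_mem (EE_le_BW X1_mem) (EE_le_BW X2_mem)))

theorem QS_mem : QS ∈ BW := by
  have h : QS = fQ (phx (X 1) (X 2)) (phy (X 1) (X 2)) O1 O2 O3 (X 0) := by
    rw [QS, gQ, O1, O2, O3]
  rw [h]
  exact fQ_mem (phx_mem (EE_le_BW X1_mem) (EE_le_BW X2_mem))
    (phy_mem (EE_le_BW X1_mem) (EE_le_BW X2_mem)) O1_mem O2_mem O3_mem (BB_le_BW X0_mem)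

theorem X6_mem : (X 6 : S7) ∈ BW := by
  have h1 : X 6 + QS ∈ BW := by
    apply EE_div
    have h : X 0 * (X 6 + QS) = DS - (X 1 + X 2) := by rw [DS, mS]; ring
    rw [h]
    exact EE.sub_mem (BB_le_EE DS_mem) (EE.add_mem X1_mem X2_mem)
  have h2 : (X 6 : S7) = (X 6 + QS) - QS := by ring
  rw [h2]
  exact BW.sub_mem h1 QS_mem

theorem BW_eq_top : BW = ⊤ := by
  rw [eq_top_iff, ← adjoin_range_X]
  apply Algebra.adjoin_le
  rintro _ ⟨i, rfl⟩
  fin_cases i
  · exact BB_le_BW X0_mem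
  · exact EE_le_BW X1_mem
  · exact EE_le_BW X2_mem
  · exact X3_mem
  · exact X4_mem
  · exact X5_mem
  · exact X6_mem

theorem aeval_Ws_surjective :
    Function.Surjective (aeval (R := BB) Ws : MvPolynomial (Fin 3) BB →ₐ[BB] S7) := by
  intro s
  have h : s ∈ BW := by rw [BW_eq_top]; exact Algebra.mem_top
  obtain ⟨p, hp⟩ := h
  exact ⟨p, hp⟩

noncomputable def pi7 : S7 →ₐ[ℂ] P2 := aeval ![0, X 0, X 1, 0, 0, 0, 0]

theorem exists_B : ∃ (B : Subalgebra ℂ (MvPolynomial (Fin 7) ℂ)) (htB : X 0 ∈ B)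
    (u : Polynomial A3 →ₐ[ℂ] MvPolynomial (Fin 7) ℂ) (π : MvPolynomial (Fin 7) ℂ →ₐ[ℂ] P2)
    (e : MvPolynomial (Fin 3) B ≃ₐ[ℂ] MvPolynomial (Fin 7) ℂ),
    Function.Injective u ∧ u Polynomial.X = X 0 ∧ (∀ f, u f ∈ B) ∧
    (∀ s ∈ B, ∃ (n : ℕ) (f : Polynomial A3), X 0 ^ n * s = u f) ∧
    (∀ s : MvPolynomial (Fin 7) ℂ, X 0 * s ∈ B → s ∈ B) ∧
    (∃ d ∈ B, u (Polynomial.C F) = X 0 * d) ∧ π (X 0) = 0 ∧
    (∀ f : Polynomial A3, π (u f) = eta (f.coeff 0)) ∧
    e (C ⟨X 0, htB⟩) = X 0 := by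
  let e : MvPolynomial (Fin 3) BB ≃ₐ[ℂ] S7 :=
    AlgEquiv.ofBijective
      ((aeval (R := BB) Ws : MvPolynomial (Fin 3) BB →ₐ[BB] S7).restrictScalars ℂ)
      ⟨aeval_Ws_injective, aeval_Ws_surjective⟩
  refine ⟨BB, X0_mem, u7, pi7, e, u7_injective, u7_X, u7_mem, fun s hs => hs, BB_div,
    ⟨DS, DS_mem, by rw [u7_C, uU_F]⟩, by simp [pi7], ?_, ?_⟩
  · have p0 : pi7 (X 0) = 0 := by simp [pi7]
    have p1 : pi7 (X 1) = X 0 := by simp [pi7]
    have p2 : pi7 (X 2) = X 1 := by simp [pi7]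
    have q1 : pi7 U1 = phx (X 0) (X 1) := by
      rw [U1, gU1, map_add, map_mul, p0, zero_mul, add_zero]
      have := map_phx (pi7 : S7 →+* P2) (X 1) (X 2)
      simp only [RingHom.coe_coe, p1, p2] at this
      exact this
    have q2 : pi7 U2 = phy (X 0) (X 1) := by
      rw [U2, gU2, map_add, map_mul, p0, zero_mul, add_zero]
      have := map_phy (pi7 : S7 →+* P2) (X 1) (X 2)
      simp only [RingHom.coe_coe, p1, p2] at this
      exact this
    have q3 : pi7 U3 = phz (X 0) (X 1) := by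
      rw [U3, gU3, map_add, map_mul, p0, zero_mul, add_zero]
      have := map_phz (pi7 : S7 →+* P2) (X 1) (X 2)
      simp only [RingHom.coe_coe, p1, p2] at this
      exact this
    have key : ∀ f : A3, pi7 (uU f) = eta f := by
      intro f
      have : pi7.comp uU = eta := by
        apply MvPolynomial.algHom_ext
        intro i
        fin_cases i
        · change pi7 (uU (X 0)) = eta (X 0)
          rw [uU_X0, q1]; simp [eta]
        · change pi7 (uU (X 1)) = eta (X 1)
          rw [uU_X1, q2]; simp [eta]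
        · change pi7 (uU (X 2)) = eta (X 2)
          rw [uU_X2, q3]; simp [eta]
      rw [← this]; rfl
    intro f
    have h : Polynomial.X * f.divX + Polynomial.C (f.coeff 0) = f :=
      Polynomial.X_mul_divX_add f
    have h2 : pi7 (u7 f) = pi7 (u7 (Polynomial.X * f.divX + Polynomial.C (f.coeff 0))) := by
      rw [h]
    rw [h2, map_add, map_mul, u7_X, u7_C, map_add, map_mul, p0, zero_mul, zero_add, key]
  · change aeval Ws (C (⟨X 0, X0_mem⟩ : BB)) = X 0
    rw [aeval_C]; rfl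

end Vale.Agent.P295.Full
end

section

open MvPolynomial

namespace Vale.Agent.P295.Full

/-- one cancellation step for `B[w_1..w_{k+1}]`. -/
theorem down {B : Type} [CommRing B] [Algebra ℂ B] (t : B) (k n : ℕ)
    (h : ∃ (e : MvPolynomial (Fin (k + 1)) B ≃ₐ[ℂ] MvPolynomial (Fin (n + 1)) ℂ)
      (i : Fin (n + 1)), e (C t) = X i)
    (h1 : SCC (n + 1)) (h2 : SCC n) :
    ∃ (e : MvPolynomial (Fin k) B ≃ₐ[ℂ] MvPolynomial (Fin n) ℂ) (j : Fin n), e (C t) = X j := by
  obtain ⟨e, i, he⟩ := h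
  let e1 : Polynomial (MvPolynomial (Fin k) B) ≃ₐ[ℂ] MvPolynomial (Fin (k + 1)) B :=
    ((finSuccEquiv B k).symm).restrictScalars ℂ
  have h3 : e1 (Polynomial.C (C t)) = C t := by
    change (finSuccEquiv B k).symm (Polynomial.C (C t)) = C t
    rw [AlgEquiv.symm_apply_eq, finSuccEquiv_apply]
    simp only [eval₂Hom_C, RingHom.coe_comp, Function.comp_apply]
  exact step n h1 h2 (C t) (e1.trans e) i (by
    change e (e1 (Polynomial.C (C t))) = X i
    rw [h3, he])

theorem descend {B : Type} [CommRing B] [Algebra ℂ B] (t : B)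
    (e : MvPolynomial (Fin 3) B ≃ₐ[ℂ] MvPolynomial (Fin 7) ℂ) (he : e (C t) = X 0)
    (h7 : SCC 7) (h6 : SCC 6) (h5 : SCC 5) (h4 : SCC 4) :
    ∃ (e : B ≃ₐ[ℂ] MvPolynomial (Fin 4) ℂ) (j : Fin 4), e t = X j := by
  have k3 := down t 2 6 ⟨e, 0, he⟩ h7 h6
  have k2 := down t 1 5 k3 h6 h5
  obtain ⟨e0, j, he0⟩ := down t 0 4 k2 h5 h4
  let e1 : MvPolynomial (Fin 0) B ≃ₐ[ℂ] B := (isEmptyAlgEquiv B (Fin 0)).restrictScalars ℂ
  refine ⟨e1.symm.trans e0, j, ?_⟩
  have h1 : e1.symm t = C t := by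
    rw [AlgEquiv.symm_apply_eq]
    change t = isEmptyAlgEquiv B (Fin 0) (C t)
    exact ((isEmptyAlgEquiv B (Fin 0)).commutes t).symm
  change e0 (e1.symm t) = X j
  rw [h1, he0]

end Vale.Agent.P295.Full
end

section

open MvPolynomial

namespace Vale.Agent.P295.Full

/-- the partial derivative is locally nilpotent -/
theorem nt_pderiv_LN {m : ℕ} (i : Fin m) :
    IsLN (pderiv i : Derivation ℂ (MvPolynomial (Fin m) ℂ) (MvPolynomial (Fin m) ℂ)) := by
  have hz : ∀ n : ℕ, (⇑(pderiv i : Derivation ℂ (MvPolynomial (Fin m) ℂ)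
      (MvPolynomial (Fin m) ℂ)))^[n] 0 = 0 := fun n =>
    Function.iterate_fixed (map_zero _) n
  have hmono : ∀ (n : ℕ) (s : Fin m →₀ ℕ) (c : ℂ), s i = n →
      (⇑(pderiv i : Derivation ℂ (MvPolynomial (Fin m) ℂ)
        (MvPolynomial (Fin m) ℂ)))^[n + 1] (monomial s c) = 0 := by
    intro n
    induction n with
    | zero =>
      intro s c hs
      simp only [zero_add, Function.iterate_one, pderiv_monomial, hs, CharP.cast_eq_zero, mul_zero, monomial_zero]
    | succ n ih =>
      intro s c hs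
      rw [Function.iterate_succ_apply, pderiv_monomial]
      apply ih
      simp only [Finsupp.coe_tsub, Pi.sub_apply, hs, Finsupp.single_eq_same, add_tsub_cancel_right]
  intro a
  induction a using MvPolynomial.induction_on' with
  | monomial s c => exact ⟨s i + 1, hmono _ s c rfl⟩
  | add p q hp hq =>
    obtain ⟨n1, h1⟩ := hp
    obtain ⟨n2, h2⟩ := hq
    refine ⟨n1 + n2, ?_⟩
    rw [iterate_map_add, add_comm n1 n2, Function.iterate_add_apply, h1, hz, add_comm n2 n1,
      Function.iterate_add_apply, h2, hz, add_zero]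

/-- if all partial derivatives other than the `j`-th one are divisible by `X j`, the polynomial is
a constant plus a multiple of `X j` -/
theorem nt_const_add {m : ℕ} (j : Fin m) (h : MvPolynomial (Fin m) ℂ)
    (hd : ∀ i, i ≠ j → (X j : MvPolynomial (Fin m) ℂ) ∣ pderiv i h) :
    ∃ q, h = C (coeff 0 h) + X j * q := by
  have hdvd : (X j : MvPolynomial (Fin m) ℂ) ∣ h - C (coeff 0 h) := by
    rw [X_dvd_iff_modMonomial_eq_zero]
    ext s
    rw [coeff_zero]
    by_cases hs : Finsupp.single j 1 ≤ s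
    · exact coeff_modMonomial_of_le _ hs
    · rw [coeff_modMonomial_of_not_le _ hs]
      have hsj : s j = 0 := by
        by_contra hne
        apply hs
        rw [Finsupp.single_le_iff]
        omega
      rw [coeff_sub, coeff_C]
      by_cases h0 : s = 0
      · subst h0; simp
      · rw [if_neg (fun h => h0 h.symm), sub_zero]
        obtain ⟨i, hi⟩ := Finsupp.ne_iff.mp h0
        have hij : i ≠ j := by rintro rfl; exact hi hsj
        obtain ⟨g, hg⟩ := hd i hij
        have hc : coeff (s - Finsupp.single i 1) (pderiv i h) = 0 := by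
          rw [hg, coeff_X_mul']
          rw [if_neg]
          simp only [Finsupp.mem_support_iff, Finsupp.coe_tsub, Pi.sub_apply, hsj, zero_tsub, ne_eq, not_true_eq_false, not_false_eq_true]
        have hi' : s i ≠ 0 := hi
        have hsi : s - Finsupp.single i 1 + Finsupp.single i 1 = s := by
          ext a
          by_cases ha : a = i
          · subst ha; simp only [Finsupp.coe_add, Finsupp.coe_tsub, Pi.add_apply, Pi.sub_apply, Finsupp.single_eq_same]; omega
          · simp only [Finsupp.coe_add, Finsupp.coe_tsub, Pi.add_apply, Pi.sub_apply, ne_eq, Ne.symm ha, not_false_eq_true, Finsupp.single_eq_of_ne', tsub_zero, add_zero]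
        rw [coeff_pderiv, hsi] at hc
        rcases mul_eq_zero.mp hc with h1 | h1
        · exact h1
        · exact absurd h1 (Nat.cast_add_one_ne_zero _)
  obtain ⟨q, hq⟩ := hdvd
  exact ⟨q, by rw [← hq]; ring⟩

/-- transport of a polynomial function along `u` and a derivation -/
theorem nt_lift {B : Type} [CommRing B] [Algebra ℂ B] (t : B)
    (u : Polynomial A3 →ₐ[ℂ] B) (hut : u Polynomial.X = t)
    (Δ : Derivation ℂ B B) (hΔt : Δ t = 0) (N : ℕ) (f : Fin 3 → Polynomial A3)
    (hf : ∀ k, t ^ N * Δ (u (Polynomial.C (X k))) = u (f k)) (g : Polynomial A3) :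
    ∃ g' : Polynomial A3, u g' = t ^ N * Δ (u g) ∧
      g'.coeff 0 = mkDerivation ℂ (fun k => (f k).coeff 0) (g.coeff 0) := by
  set D0 : Derivation ℂ A3 A3 := mkDerivation ℂ (fun k => (f k).coeff 0) with hD0
  have hadd : ∀ p q : Polynomial A3,
      (∃ g' : Polynomial A3, u g' = t ^ N * Δ (u p) ∧ g'.coeff 0 = D0 (p.coeff 0)) →
      (∃ g' : Polynomial A3, u g' = t ^ N * Δ (u q) ∧ g'.coeff 0 = D0 (q.coeff 0)) →
      ∃ g' : Polynomial A3, u g' = t ^ N * Δ (u (p + q)) ∧ g'.coeff 0 = D0 ((p + q).coeff 0) := by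
    rintro p q ⟨p', hp1, hp2⟩ ⟨q', hq1, hq2⟩
    refine ⟨p' + q', ?_, ?_⟩
    · rw [map_add, hp1, hq1, map_add, map_add]; ring
    · rw [Polynomial.coeff_add, hp2, hq2, Polynomial.coeff_add, map_add]
  have hmul : ∀ p q : Polynomial A3,
      (∃ g' : Polynomial A3, u g' = t ^ N * Δ (u p) ∧ g'.coeff 0 = D0 (p.coeff 0)) →
      (∃ g' : Polynomial A3, u g' = t ^ N * Δ (u q) ∧ g'.coeff 0 = D0 (q.coeff 0)) →
      ∃ g' : Polynomial A3, u g' = t ^ N * Δ (u (p * q)) ∧ g'.coeff 0 = D0 ((p * q).coeff 0) := by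
    rintro p q ⟨p', hp1, hp2⟩ ⟨q', hq1, hq2⟩
    refine ⟨p * q' + q * p', ?_, ?_⟩
    · rw [map_add, map_mul, map_mul, hp1, hq1, map_mul, Δ.leibniz]
      simp only [smul_eq_mul]; ring
    · rw [Polynomial.coeff_add, Polynomial.mul_coeff_zero, Polynomial.mul_coeff_zero, hp2, hq2,
        Polynomial.mul_coeff_zero, D0.leibniz]
      simp only [smul_eq_mul]
  have hC : ∀ a : A3, ∃ g' : Polynomial A3, u g' = t ^ N * Δ (u (Polynomial.C a)) ∧
      g'.coeff 0 = D0 ((Polynomial.C a).coeff 0) := by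
    intro a
    induction a using MvPolynomial.induction_on with
    | C c =>
      refine ⟨0, ?_, ?_⟩
      · have : u (Polynomial.C (C c)) = algebraMap ℂ B c := by
          rw [← u.commutes c]; rfl
        rw [this, Δ.map_algebraMap, mul_zero, map_zero]
      · rw [Polynomial.coeff_C_zero, Polynomial.coeff_zero]
        have : (C c : A3) = algebraMap ℂ A3 c := rfl
        rw [this, D0.map_algebraMap]
    | add p q hp hq =>
      rw [Polynomial.C_add]
      exact hadd _ _ hp hq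
    | mul_X p k hp =>
      rw [Polynomial.C_mul]
      refine hmul _ _ hp ⟨f k, (hf k).symm, ?_⟩
      rw [Polynomial.coeff_C_zero, hD0, mkDerivation_X]
  induction g using Polynomial.induction_on with
  | C a => exact hC a
  | add p q hp hq => exact hadd _ _ hp hq
  | monomial n a h =>
    rw [pow_succ, ← mul_assoc]
    refine hmul _ _ h ⟨0, ?_, ?_⟩
    · rw [hut, hΔt, mul_zero, map_zero]
    · rw [Polynomial.coeff_X_zero, map_zero, Polynomial.coeff_zero]

theorem nt_pow_iter {B : Type} [CommRing B] [Algebra ℂ B] (t : B) (Δ : Derivation ℂ B B)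
    (hΔt : Δ t = 0) (N : ℕ) (b : B) (n : ℕ) :
    (fun x => t ^ N * Δ x)^[n] b = t ^ (N * n) * (⇑Δ)^[n] b := by
  induction n with
  | zero => simp
  | succ n ih =>
    rw [Function.iterate_succ_apply', Function.iterate_succ_apply', ih, Δ.leibniz,
      Δ.leibniz_pow, hΔt]
    simp only [smul_eq_mul, mul_zero, smul_zero, add_zero]
    ring

/-- the induced derivation at `t = 0` is locally nilpotent -/
theorem nt_LN {B : Type} [CommRing B] [Algebra ℂ B] (t : B)
    (u : Polynomial A3 →ₐ[ℂ] B) (hu : Function.Injective u) (hut : u Polynomial.X = t)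
    (Δ : Derivation ℂ B B) (hLN : IsLN Δ) (hΔt : Δ t = 0) (N : ℕ) (f : Fin 3 → Polynomial A3)
    (hf : ∀ k, t ^ N * Δ (u (Polynomial.C (X k))) = u (f k)) :
    IsLN (mkDerivation ℂ (fun k => (f k).coeff 0) : Derivation ℂ A3 A3) := by
  intro a
  set D0 : Derivation ℂ A3 A3 := mkDerivation ℂ (fun k => (f k).coeff 0) with hD0
  have hit : ∀ n : ℕ, ∃ g : Polynomial A3,
      u g = (fun x => t ^ N * Δ x)^[n] (u (Polynomial.C a)) ∧ g.coeff 0 = (⇑D0)^[n] a := by
    intro n
    induction n with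
    | zero => exact ⟨Polynomial.C a, rfl, Polynomial.coeff_C_zero⟩
    | succ n ih =>
      obtain ⟨g, h1, h2⟩ := ih
      obtain ⟨g', h3, h4⟩ := nt_lift t u hut Δ hΔt N f hf g
      refine ⟨g', ?_, ?_⟩
      · rw [h3, h1, Function.iterate_succ_apply']
      · rw [h4, h2, Function.iterate_succ_apply']
  obtain ⟨n, hn⟩ := hLN (u (Polynomial.C a))
  obtain ⟨g, h1, h2⟩ := hit n
  refine ⟨n, ?_⟩
  rw [nt_pow_iter t Δ hΔt, hn, mul_zero] at h1
  have hg : g = 0 := hu (by rw [h1, map_zero])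
  rw [← h2, hg, Polynomial.coeff_zero]

/-- main divisibility claim -/
theorem nt_key
    (hrigid : ∀ D : Derivation ℂ A3 A3, IsLN D → D F = 0 → D = 0)
    (hdvd : ∀ D : Derivation ℂ A3 A3, IsLN D → ∀ f : A3, f ∣ D f → D f = 0)
    (hsmul : ∀ (D D' : Derivation ℂ A3 A3) (f : A3), f ≠ 0 → IsLN D → (∀ a, D a = f * D' a) →
      D' f = 0 ∧ IsLN D')
    (heta : ∀ f : A3, eta f = 0 → F ∣ f) (hF0 : F ≠ 0)
    {B : Type} [CommRing B] [IsDomain B] [Algebra ℂ B] (t : B) (ht0 : t ≠ 0)
    (u : Polynomial A3 →ₐ[ℂ] B) (hu : Function.Injective u) (hut : u Polynomial.X = t)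
    (hsat : ∀ s : B, ∃ (n : ℕ) (f : Polynomial A3), t ^ n * s = u f)
    (d : B) (hF : u (Polynomial.C F) = t * d) (π : B →ₐ[ℂ] P2) (hπt : π t = 0)
    (hπu : ∀ f : Polynomial A3, π (u f) = eta (f.coeff 0))
    (Δ : Derivation ℂ B B) (hLN : IsLN Δ) (hΔt : Δ t = 0) (k : Fin 3) :
    ∃ q, Δ (u (Polynomial.C (X k))) = t * q := by
  classical
  -- common exponent
  have hex : ∃ N : ℕ, ∀ k : Fin 3, ∃ f, t ^ N * Δ (u (Polynomial.C (X k))) = u f := by
    choose n f hnf using fun k : Fin 3 => hsat (Δ (u (Polynomial.C (X k))))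
    refine ⟨∑ k, n k, fun k => ⟨Polynomial.X ^ ((∑ k, n k) - n k) * f k, ?_⟩⟩
    have hle : n k ≤ ∑ k, n k := Finset.single_le_sum (fun _ _ => Nat.zero_le _) (Finset.mem_univ k)
    rw [map_mul, map_pow, hut, ← hnf, ← mul_assoc, ← pow_add, Nat.sub_add_cancel hle]
  set N := Nat.find hex with hN
  have hNspec := Nat.find_spec hex
  rw [← hN] at hNspec
  choose f hf using hNspec
  have hdivX : ∀ k, (f k).coeff 0 = 0 → ∃ g, f k = Polynomial.X * g := by
    intro k hk
    exact Polynomial.X_dvd_iff.mpr hk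
  have hLN0 := nt_LN t u hu hut Δ hLN hΔt N f hf
  set D0 : Derivation ℂ A3 A3 := mkDerivation ℂ (fun k => (f k).coeff 0) with hD0
  have hD0X : ∀ k, D0 (X k) = (f k).coeff 0 := fun k => by rw [hD0, mkDerivation_X]
  rcases Nat.eq_zero_or_pos N with hN0 | hNpos
  · -- N = 0
    by_cases hz : D0 = 0
    · have h0 : (f k).coeff 0 = 0 := by rw [← hD0X, hz]; rfl
      obtain ⟨g, hg⟩ := hdivX k h0
      refine ⟨u g, ?_⟩
      have := hf k
      rw [hN0, pow_zero, one_mul] at this
      rw [this, hg, map_mul, hut]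
    · exfalso
      apply hz
      apply hrigid D0 hLN0
      apply hdvd D0 hLN0
      apply heta
      obtain ⟨g', h1, h2⟩ := nt_lift t u hut Δ hΔt N f hf (Polynomial.C F)
      rw [hN0, pow_zero, one_mul, hF, Δ.leibniz, hΔt] at h1
      simp only [smul_eq_mul, mul_zero, add_zero] at h1
      have h3 : π (u g') = eta (g'.coeff 0) := hπu g'
      rw [h1, map_mul, hπt, zero_mul, h2, Polynomial.coeff_C_zero] at h3
      exact h3.symm
  · -- N ≥ 1
    exfalso
    have hne : D0 ≠ 0 := by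
      intro hz
      have hmin : ¬ ∀ k : Fin 3, ∃ f, t ^ (N - 1) * Δ (u (Polynomial.C (X k))) = u f :=
        Nat.find_min hex (by rw [← hN]; omega)
      apply hmin
      intro k
      have h0 : (f k).coeff 0 = 0 := by rw [← hD0X, hz]; rfl
      obtain ⟨g, hg⟩ := hdivX k h0
      refine ⟨g, ?_⟩
      have h1 := hf k
      rw [hg, map_mul, hut] at h1
      have h2 : t ^ N = t * t ^ (N - 1) := by
        rw [← pow_succ']; congr 1; omega
      rw [h2, mul_assoc] at h1
      exact mul_left_cancel₀ ht0 h1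
    have hdiv : ∀ k, F ∣ D0 (X k) := by
      intro k
      apply heta
      rw [hD0X, ← hπu, ← hf k, map_mul, map_pow, hπt, zero_pow hNpos.ne', zero_mul]
    choose c hc using hdiv
    set D' : Derivation ℂ A3 A3 := mkDerivation ℂ c with hD'
    have hmulD : ∀ a, D0 a = F * D' a := by
      have : D0 = F • D' := by
        apply derivation_ext
        intro i
        rw [hc, hD', Derivation.smul_apply, mkDerivation_X, smul_eq_mul]
      intro a
      rw [this, Derivation.smul_apply, smul_eq_mul]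
    obtain ⟨h1, h2⟩ := hsmul D0 D' F hF0 hLN0 hmulD
    have h3 := hrigid D' h2 h1
    apply hne
    ext a
    rw [hmulD, h3]
    simp only [Derivation.coe_zero, Pi.zero_apply, mul_zero, coeff_zero]

theorem nt_F_ne : F ≠ 0 := by
  intro h
  have h1 : aeval (![0, 0, 1] : Fin 3 → ℂ) F = 0 := by rw [h, map_zero]
  simp only [Nat.succ_eq_add_one, Nat.reduceAdd, F, fF, Fin.isValue, aeval_eq_eval, map_add, map_pow, eval_X, Matrix.cons_val, one_pow, map_mul, Matrix.cons_val_zero, Matrix.cons_val_one, mul_zero, map_sub, sub_self, add_zero, add_self_eq_zero, one_ne_zero] at h1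

/-- the first component of the parametrization is not a constant -/
theorem nt_eta_X0 (c : ℂ) : eta (X 0) ≠ C c := by
  intro h
  have h1 : eta (X 0) = phx (X 0 : P2) (X 1) := by simp [eta]
  rw [h1] at h
  have h2 := congrArg (aeval (![0, 0] : Fin 2 → ℂ)) h
  have h3 := congrArg (aeval (![0, 1] : Fin 2 → ℂ)) h
  simp only [Nat.succ_eq_add_one, Nat.reduceAdd, phx, Fin.isValue, aeval_eq_eval, map_mul, eval_X, Matrix.cons_val_one, Matrix.cons_val_fin_one, map_add, map_one, Matrix.cons_val_zero, map_sub, zero_sub, mul_neg, mul_one, neg_zero, mul_zero, add_zero, algHom_C, Algebra.algebraMap_self, RingHom.id_apply] at h2 h3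
  rw [← h2] at h3
  exact one_ne_zero h3

theorem nontriv_of
    (hrigid : ∀ D : Derivation ℂ A3 A3, IsLN D → D F = 0 → D = 0)
    (hdvd : ∀ D : Derivation ℂ A3 A3, IsLN D → ∀ f : A3, f ∣ D f → D f = 0)
    (hsmul : ∀ (D D' : Derivation ℂ A3 A3) (f : A3), f ≠ 0 → IsLN D → (∀ a, D a = f * D' a) →
      D' f = 0 ∧ IsLN D')
    (heta : ∀ f : A3, eta f = 0 → F ∣ f)
    {S : Type} [CommRing S] [IsDomain S] [Algebra ℂ S] (B : Subalgebra ℂ S) (t : S)
    (htB : t ∈ B) (ht0 : t ≠ 0) (u : Polynomial A3 →ₐ[ℂ] S) (hu : Function.Injective u)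
    (hut : u Polynomial.X = t) (huB : ∀ f, u f ∈ B)
    (hsat : ∀ s ∈ B, ∃ (n : ℕ) (f : Polynomial A3), t ^ n * s = u f)
    (hF : ∃ d ∈ B, u (Polynomial.C F) = t * d) (π : S →ₐ[ℂ] P2) (hπt : π t = 0)
    (hπu : ∀ f : Polynomial A3, π (u f) = eta (f.coeff 0)) :
    ¬ ∃ (e : B ≃ₐ[ℂ] MvPolynomial (Fin 4) ℂ) (j : Fin 4), e ⟨t, htB⟩ = X j := by
  rintro ⟨e, j, he⟩
  obtain ⟨d, hdB, hd⟩ := hF
  let uB : Polynomial A3 →ₐ[ℂ] B := u.codRestrict B huB
  have huBinj : Function.Injective uB := by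
    intro a b hab
    apply hu
    have := congrArg Subtype.val hab
    exact this
  have huBt : uB Polynomial.X = ⟨t, htB⟩ := Subtype.ext hut
  have hsat' : ∀ s : B, ∃ (n : ℕ) (f : Polynomial A3), (⟨t, htB⟩ : B) ^ n * s = uB f := by
    rintro ⟨s, hs⟩
    obtain ⟨n, f, hnf⟩ := hsat s hs
    exact ⟨n, f, Subtype.ext hnf⟩
  have ht0' : (⟨t, htB⟩ : B) ≠ 0 := by
    intro h
    exact ht0 (congrArg Subtype.val h)
  have hdB' : uB (Polynomial.C F) = ⟨t, htB⟩ * ⟨d, hdB⟩ := Subtype.ext hd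
  let πB : B →ₐ[ℂ] P2 := π.comp B.val
  have hπt' : πB ⟨t, htB⟩ = 0 := hπt
  have hπu' : ∀ f : Polynomial A3, πB (uB f) = eta (f.coeff 0) := hπu
  -- the derivations
  have hder : ∀ i : Fin 4, ∃ Δ : Derivation ℂ B B, ∀ b, Δ b = e.symm (pderiv i (e b)) := by
    intro i
    refine ⟨Derivation.mk' ((e.symm.toLinearMap.comp
      ((pderiv i : Derivation ℂ (MvPolynomial (Fin 4) ℂ)
        (MvPolynomial (Fin 4) ℂ)) : MvPolynomial (Fin 4) ℂ →ₗ[ℂ] MvPolynomial (Fin 4) ℂ)).comp
        e.toLinearMap) ?_, fun b => rfl⟩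
    intro a b
    change e.symm (pderiv i (e (a * b))) = a • e.symm (pderiv i (e b)) + b • e.symm (pderiv i (e a))
    rw [map_mul, Derivation.leibniz, map_add]
    simp only [smul_eq_mul, map_mul, AlgEquiv.symm_apply_apply]
  have hclaim : ∀ i : Fin 4, i ≠ j →
      (X j : MvPolynomial (Fin 4) ℂ) ∣ pderiv i (e (uB (Polynomial.C (X 0)))) := by
    intro i hij
    obtain ⟨Δ, hΔ⟩ := hder i
    have hiter : ∀ (n : ℕ) (b : B), (⇑Δ)^[n] b = e.symm ((⇑(pderiv i : Derivation ℂ
        (MvPolynomial (Fin 4) ℂ) (MvPolynomial (Fin 4) ℂ)))^[n] (e b)) := by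
      intro n
      induction n with
      | zero => intro b; simp
      | succ n ih =>
        intro b
        rw [Function.iterate_succ_apply, ih, hΔ, AlgEquiv.apply_symm_apply,
          Function.iterate_succ_apply]
    have hLN : IsLN Δ := by
      intro b
      obtain ⟨n, hn⟩ := nt_pderiv_LN i (e b)
      exact ⟨n, by rw [hiter, hn, map_zero]⟩
    have hΔt : Δ ⟨t, htB⟩ = 0 := by
      rw [hΔ, he, pderiv_X_of_ne hij.symm, map_zero]
    obtain ⟨q, hq⟩ := nt_key hrigid hdvd hsmul heta nt_F_ne (⟨t, htB⟩ : B) ht0' uB huBinj huBt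
      hsat' ⟨d, hdB⟩ hdB' πB hπt' hπu' Δ hLN hΔt 0
    refine ⟨e q, ?_⟩
    have h1 := congrArg e hq
    rw [hΔ, AlgEquiv.apply_symm_apply, map_mul, he] at h1
    exact h1
  obtain ⟨q, hq⟩ := nt_const_add j _ hclaim
  have h1 := congrArg e.symm hq
  rw [AlgEquiv.symm_apply_apply, map_add, map_mul, ← he, AlgEquiv.symm_apply_apply] at h1
  have h2 := congrArg πB h1
  rw [hπu', Polynomial.coeff_C_zero, map_add, map_mul, hπt', zero_mul, add_zero] at h2
  refine nt_eta_X0 (coeff 0 (e (uB (Polynomial.C (X 0))))) (h2.trans ?_)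
  have h3 : (C (coeff 0 (e (uB (Polynomial.C (X 0))))) : MvPolynomial (Fin 4) ℂ)
      = algebraMap ℂ _ (coeff 0 (e (uB (Polynomial.C (X 0))))) := rfl
  rw [h3, AlgEquiv.commutes, AlgHom.commutes]
  rfl

end Vale.Agent.P295.Full
end

section

open MvPolynomial

namespace Vale.Agent.P295.Full

/-- Leibniz rule for iterates of a derivation. -/
theorem lnd_leibniz {A : Type} [CommRing A] [Algebra ℂ A] (D : Derivation ℂ A A) (a b : A)
    (m : ℕ) : (⇑D)^[m] (a * b) =
      ∑ p ∈ Finset.HasAntidiagonal.antidiagonal m, m.choose p.1 • ((⇑D)^[p.1] a * (⇑D)^[p.2] b) := by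
  induction m with
  | zero => simp only [Function.iterate_zero, id_eq, Finset.HasAntidiagonal.antidiagonal_zero, nsmul_eq_mul, Finset.sum_singleton, Nat.choose_self, Nat.cast_one, one_mul]
  | succ m ih =>
    rw [Function.iterate_succ_apply', ih, map_sum,
      Finset.sum_antidiagonal_choose_succ_nsmul
        (fun i j => (⇑D)^[i] a * (⇑D)^[j] b), ← Finset.sum_add_distrib]
    refine Finset.sum_congr rfl fun p hp => ?_
    have hp' : p.1 + p.2 = m := Finset.HasAntidiagonal.mem_antidiagonal.1 hp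
    have hch : m.choose p.2 = m.choose p.1 := by
      rw [← Nat.choose_symm_of_eq_add (n := m) (a := p.1) (b := p.2) hp'.symm]
    rw [map_nsmul, D.leibniz, hch, ← nsmul_add]
    congr 1
    rw [Function.iterate_succ_apply', Function.iterate_succ_apply', smul_eq_mul, smul_eq_mul]
    ring

/-- The truncated exponential series. -/
noncomputable def lndE {A P : Type} [CommRing A] [Algebra ℂ A] [CommRing P] [Algebra ℂ P]
    (D : Derivation ℂ A A) (η : A →ₐ[ℂ] P) (hLN : ∀ a, ∃ n : ℕ, η ((⇑D)^[n] a) = 0) (a : A) :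
    Polynomial P :=
  ∑ i ∈ Finset.range (hLN a).choose,
    Polynomial.monomial i (((i.factorial : ℂ)⁻¹) • η ((⇑D)^[i] a))

theorem lnd_zero {A P : Type} [CommRing A] [Algebra ℂ A] [CommRing P] [Algebra ℂ P]
    (D : Derivation ℂ A A) (η : A →ₐ[ℂ] P) (hker : ∀ a, η a = 0 → η (D a) = 0) {a : A} {n : ℕ}
    (h : η ((⇑D)^[n] a) = 0) : ∀ m, n ≤ m → η ((⇑D)^[m] a) = 0 := by
  intro m hm
  induction m, hm using Nat.le_induction with
  | base => exact h
  | succ m _ ih => rw [Function.iterate_succ_apply']; exact hker _ ih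

theorem lndE_coeff {A P : Type} [CommRing A] [Algebra ℂ A] [CommRing P] [Algebra ℂ P]
    (D : Derivation ℂ A A) (η : A →ₐ[ℂ] P) (hker : ∀ a, η a = 0 → η (D a) = 0)
    (hLN : ∀ a, ∃ n : ℕ, η ((⇑D)^[n] a) = 0) (a : A) (m : ℕ) :
    (lndE D η hLN a).coeff m = ((m.factorial : ℂ)⁻¹) • η ((⇑D)^[m] a) := by
  unfold lndE
  rw [Polynomial.finsetSum_coeff]
  by_cases hm : m < (hLN a).choose
  · rw [Finset.sum_eq_single m]
    · rw [Polynomial.coeff_monomial, if_pos rfl]
    · intro i _ hi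
      rw [Polynomial.coeff_monomial, if_neg hi]
    · intro h
      exact absurd (Finset.mem_range.2 hm) h
  · rw [lnd_zero D η hker (hLN a).choose_spec m (not_lt.1 hm), smul_zero]
    refine Finset.sum_eq_zero fun i hi => ?_
    have : i ≠ m := by
      rintro rfl
      exact hm (Finset.mem_range.1 hi)
    rw [Polynomial.coeff_monomial, if_neg this]

theorem exists_exp {A P : Type} [CommRing A] [Algebra ℂ A] [CommRing P] [Algebra ℂ P]
    (D : Derivation ℂ A A) (η : A →ₐ[ℂ] P)
    (hker : ∀ a, η a = 0 → η (D a) = 0) (hLN : ∀ a, ∃ n : ℕ, η ((⇑D)^[n] a) = 0) :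
    ∃ E : A →ₐ[ℂ] Polynomial P, (∀ a, E (D a) = Polynomial.derivative (E a)) ∧
      (∀ a, (E a).coeff 0 = η a) ∧ (∀ a, η a = 0 → E a = 0) := by
  have hc := lndE_coeff D η hker hLN
  have hconst : ∀ (r : ℂ) (m : ℕ), (⇑D)^[m] (algebraMap ℂ A r) =
      if m = 0 then algebraMap ℂ A r else 0 := by
    intro r m
    induction m with
    | zero => simp
    | succ m ih =>
      rw [Function.iterate_succ_apply', ih, if_neg (Nat.succ_ne_zero m)]
      split_ifs
      · exact D.map_algebraMap r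
      · exact map_zero D
  let E : A →ₐ[ℂ] Polynomial P :=
    { toFun := lndE D η hLN
      map_one' := by
        ext m
        rw [hc, Polynomial.coeff_one]
        have := hconst 1 m
        rw [map_one] at this
        rw [this]
        by_cases hm : m = 0
        · subst hm; simp only [Nat.factorial_zero, Nat.cast_one, inv_one, ↓reduceIte, map_one, one_smul]
        · simp [hm]
      map_zero' := by
        ext m
        rw [hc, Polynomial.coeff_zero, iterate_map_zero, map_zero, smul_zero]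
      map_add' := by
        intro a b
        ext m
        rw [Polynomial.coeff_add, hc, hc, hc, iterate_map_add, map_add, smul_add]
      map_mul' := by
        intro a b
        ext m
        rw [Polynomial.coeff_mul, hc, lnd_leibniz, map_sum, Finset.smul_sum]
        refine Finset.sum_congr rfl fun p hp => ?_
        have hp' : p.1 + p.2 = m := Finset.HasAntidiagonal.mem_antidiagonal.1 hp
        rw [hc, hc, map_nsmul, map_mul, smul_mul_smul_comm, ← Nat.cast_smul_eq_nsmul ℂ, smul_smul]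
        congr 1
        have h1 : (m.factorial : ℂ) = m.choose p.1 * p.1.factorial * p.2.factorial := by
          have h2 := Nat.choose_mul_factorial_mul_factorial (n := m) (k := p.1) (by omega)
          have h3 : m - p.1 = p.2 := by omega
          rw [h3] at h2
          exact_mod_cast h2.symm
        have f0 : (m.factorial : ℂ) ≠ 0 := by exact_mod_cast m.factorial_ne_zero
        have f1 : (p.1.factorial : ℂ) ≠ 0 := by exact_mod_cast p.1.factorial_ne_zero
        have f2 : (p.2.factorial : ℂ) ≠ 0 := by exact_mod_cast p.2.factorial_ne_zero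
        have f3 : (m.choose p.1 : ℂ) ≠ 0 := by
          intro h
          rw [h] at h1
          simp at h1
          exact f0 (by exact_mod_cast h1)
        rw [h1]
        field_simp
      commutes' := by
        intro r
        ext m
        rw [hc, hconst, Polynomial.algebraMap_apply, Polynomial.coeff_C]
        by_cases hm : m = 0
        · subst hm; simp only [Nat.factorial_zero, Nat.cast_one, inv_one, ↓reduceIte, AlgHom.commutes, one_smul]
        · simp only [hm, ↓reduceIte, map_zero, smul_zero] }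
  have hE : ∀ a, E a = lndE D η hLN a := fun _ => rfl
  refine ⟨E, fun a => ?_, fun a => ?_, fun a ha => ?_⟩
  · ext m
    rw [hE, hE, Polynomial.coeff_derivative, hc, hc, ← Function.iterate_succ_apply (⇑D)]
    have h1 : ((m : P) + 1) = ((m : ℂ) + 1) • (1 : P) := by
      rw [Algebra.smul_def]; simp only [map_add, map_natCast, map_one, mul_one]
    rw [h1, mul_smul_comm, mul_one, smul_smul]
    congr 1
    rw [Nat.factorial_succ]
    push_cast
    have f0 : (m.factorial : ℂ) ≠ 0 := by exact_mod_cast m.factorial_ne_zero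
    have f1 : (m : ℂ) + 1 ≠ 0 := by exact_mod_cast Nat.succ_ne_zero m
    field_simp
  · rw [hE, hc]
    simp
  · ext m
    rw [hE, hc, lnd_zero D η hker (n := 0) ha m (Nat.zero_le m), smul_zero, Polynomial.coeff_zero]

theorem dvd_imp {A : Type} [CommRing A] [IsDomain A] [Algebra ℂ A] (D : Derivation ℂ A A)
    (hD : IsLN D) {f : A} (h : f ∣ D f) : D f = 0 := by
  obtain ⟨E, h1, h2, -⟩ := exists_exp D (AlgHom.id ℂ A) (fun a ha => by
    change a = 0 at ha
    change D a = 0
    rw [ha, map_zero]) (fun a => hD a)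
  obtain ⟨g, hg⟩ := h
  have h3 : E f * E g = Polynomial.derivative (E f) := by
    rw [← h1, hg, map_mul]
  have h4 : Polynomial.derivative (E f) = 0 := by
    by_contra hne
    have hf : E f ≠ 0 := by
      intro h0
      rw [h0, Polynomial.derivative_zero] at hne
      exact hne rfl
    have hg0 : E g ≠ 0 := by
      intro h0
      rw [h0, mul_zero] at h3
      exact hne h3.symm
    have h5 := Polynomial.degree_derivative_lt hf
    rw [← h3, Polynomial.degree_mul] at h5
    have h6 : (0 : WithBot ℕ) ≤ (E g).degree := Polynomial.zero_le_degree_iff.2 hg0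
    have h7 : (E f).degree ≤ (E f).degree + (E g).degree := by
      calc (E f).degree = (E f).degree + 0 := (add_zero _).symm
        _ ≤ _ := by (clear * - h6; gcongr)
    exact absurd h5 (not_lt.2 h7)
  rw [← h1] at h4
  have h8 := h2 (D f)
  rw [h4, Polynomial.coeff_zero] at h8
  exact h8.symm

theorem smul_LN {A : Type} [CommRing A] [IsDomain A] [Algebra ℂ A] (D D' : Derivation ℂ A A)
    (f : A) (hf : f ≠ 0) (hD : IsLN D) (h : ∀ a, D a = f * D' a) : D' f = 0 ∧ IsLN D' := by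
  have h1 : D f = 0 := dvd_imp D hD ⟨D' f, h f⟩
  have h2 : D' f = 0 := by
    have h3 := h f
    rw [h1] at h3
    rcases mul_eq_zero.1 h3.symm with h4 | h4
    · exact absurd h4 hf
    · exact h4
  refine ⟨h2, fun a => ?_⟩
  have h3 : ∀ n, (⇑D)^[n] a = f ^ n * (⇑D')^[n] a := by
    intro n
    induction n with
    | zero => simp
    | succ n ih =>
      rw [Function.iterate_succ_apply', Function.iterate_succ_apply', ih, D.leibniz,
        D.leibniz_pow, h1, smul_zero, smul_zero, smul_zero, add_zero, h, smul_eq_mul, pow_succ,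
        mul_assoc]
  obtain ⟨n, hn⟩ := hD a
  refine ⟨n, ?_⟩
  rw [h3] at hn
  rcases mul_eq_zero.1 hn with h4 | h4
  · exact absurd h4 (pow_ne_zero n hf)
  · exact h4

end Vale.Agent.P295.Full
end

section

open MvPolynomial

namespace Vale.Agent.P295.Full

/-- the cubic form xy(x-y) in two variables -/
noncomputable def kerCub : P2 := X 0 * X 1 * (X 0 - X 1)

theorem kerCub_hom : (kerCub).IsHomogeneous 3 := by
  have h1 : (X 0 * X 1 : P2).IsHomogeneous 2 := (isHomogeneous_X ℂ 0).mul (isHomogeneous_X ℂ 1)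
  have h2 : (X 0 - X 1 : P2).IsHomogeneous 1 := (isHomogeneous_X ℂ 0).sub (isHomogeneous_X ℂ 1)
  exact h1.mul h2

theorem kerCub_ne : kerCub ≠ 0 := by
  intro h
  have := congrArg (MvPolynomial.eval ![(2:ℂ), 1]) h
  simp [kerCub] at this
  norm_num at this

theorem kerCub_deg (c : ℂ) : (C c - C 4 * kerCub : P2).totalDegree = 3 := by
  have h4 : (C 4 * kerCub : P2) ≠ 0 := mul_ne_zero (by simp) kerCub_ne
  have hh : (C 4 * kerCub : P2).IsHomogeneous 3 := by
    have := (isHomogeneous_C (Fin 2) (4:ℂ)).mul kerCub_hom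
    simpa using this
  have hd : (C 4 * kerCub : P2).totalDegree = 3 := hh.totalDegree h4
  have hd' : (-(C 4 * kerCub) : P2).totalDegree = 3 := by rw [totalDegree_neg, hd]
  rw [sub_eq_add_neg, totalDegree_add_eq_right_of_totalDegree_lt, hd']
  rw [hd', totalDegree_C]; norm_num

/-- parity of the total degree: the discriminant is not a square -/
theorem ker_parity (c : ℂ) (s r : P2) (h : s ^ 2 = r ^ 2 * (C c - C 4 * kerCub)) :
    r = 0 := by
  by_contra hr
  have hD : (C c - C 4 * kerCub : P2) ≠ 0 := by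
    intro h0
    have := kerCub_deg c
    rw [h0] at this
    simp at this
  have hs : s ≠ 0 := by
    rintro rfl
    have : r ^ 2 * (C c - C 4 * kerCub) ≠ 0 := mul_ne_zero (pow_ne_zero 2 hr) hD
    apply this
    rw [← h]; ring
  have h1 : (s * s).totalDegree = s.totalDegree + s.totalDegree :=
    totalDegree_mul_of_isDomain hs hs
  have h2 : (r * r * (C c - C 4 * kerCub)).totalDegree = r.totalDegree + r.totalDegree + 3 := by
    rw [totalDegree_mul_of_isDomain (mul_ne_zero hr hr) hD, totalDegree_mul_of_isDomain hr hr,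
      kerCub_deg]
  have h3 : s * s = r * r * (C c - C 4 * kerCub) := by
    calc s * s = s ^ 2 := by ring
      _ = _ := h
      _ = _ := by ring
  rw [h3, h2] at h1
  omega

theorem ker_norm (c : ℂ) (r0 r1 : P2)
    (h : r0 ^ 2 - C c * r0 * r1 + r1 ^ 2 * kerCub = 0) : r0 = 0 ∧ r1 = 0 := by
  have h1 : r1 = 0 := by
    apply ker_parity (c ^ 2) (C 2 * r0 - C c * r1) r1
    have e2 : (C 2 : P2) = 2 := map_ofNat C 2
    have e4 : (C 4 : P2) = 4 := map_ofNat C 4
    rw [C_pow, e2, e4]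
    linear_combination 4 * h
  refine ⟨?_, h1⟩
  rw [h1] at h
  have : r0 ^ 2 = 0 := by linear_combination h
  exact pow_eq_zero_iff (two_ne_zero) |>.1 this

/-- the two first variables -/
noncomputable def kerI : P2 →ₐ[ℂ] A3 := aeval ![X 0, X 1]

theorem kerI_0 : kerI (X 0) = X 0 := by simp [kerI]
theorem kerI_1 : kerI (X 1) = X 1 := by simp [kerI]
theorem kerI_C (c : ℂ) : kerI (C c) = C c := kerI.commutes c
theorem kerI_cub : kerI kerCub = X 0 * X 1 * (X 0 - X 1) := by
  simp [kerI, kerCub]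

/-- the polynomial z^2 + c z + xy(x-y) -/
noncomputable def kerG (c : ℂ) : A3 := X 2 ^ 2 + C c * X 2 + X 0 * X 1 * (X 0 - X 1)

theorem ker_normal (c : ℂ) (f : A3) :
    ∃ (r0 r1 : P2) (g : A3), f = kerI r0 + kerI r1 * X 2 + kerG c * g := by
  induction f using MvPolynomial.induction_on with
  | C a => exact ⟨C a, 0, 0, by simp⟩
  | add p q hp hq =>
    obtain ⟨r0, r1, g, hp⟩ := hp
    obtain ⟨s0, s1, h, hq⟩ := hq
    refine ⟨r0 + s0, r1 + s1, g + h, ?_⟩
    rw [map_add, map_add, hp, hq]; ring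
  | mul_X p i hp =>
    obtain ⟨r0, r1, g, hp⟩ := hp
    fin_cases i
    · refine ⟨r0 * X 0, r1 * X 0, g * X 0, ?_⟩
      rw [map_mul, map_mul, kerI_0, hp]
      simp only [Fin.zero_eta]
      ring
    · refine ⟨r0 * X 1, r1 * X 1, g * X 1, ?_⟩
      rw [map_mul, map_mul, kerI_1, hp]
      simp only [Fin.mk_one]
      ring
    · refine ⟨- (r1 * kerCub), r0 - C c * r1, kerI r1 + g * X 2, ?_⟩
      rw [map_neg, map_mul, map_sub, map_mul, kerI_cub, kerI_C, hp]
      simp only [Fin.reduceFinMk]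
      rw [kerG]
      ring

theorem ker_main (c : ℂ) (θ : A3 →ₐ[ℂ] P2) (hθ : θ (kerG c) = 0)
    (hinj : ∀ N : P2, θ (kerI N) = 0 → N = 0) (f : A3) : θ f = 0 ↔ kerG c ∣ f := by
  constructor
  · intro h
    obtain ⟨r0, r1, g, hf⟩ := ker_normal c f
    have h1 : θ (kerI r0) + θ (kerI r1) * θ (X 2) = 0 := by
      have := h
      rw [hf, map_add, map_mul θ (kerG c), hθ, zero_mul, add_zero, map_add, map_mul] at this
      exact this
    have hz : θ (X 2) ^ 2 + C c * θ (X 2) + θ (kerI kerCub) = 0 := by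
      have := hθ
      rw [kerG, map_add, map_add, map_pow, map_mul] at this
      rw [kerI_cub]
      rw [show θ (C c) = C c from θ.commutes c] at this
      exact this
    have hc : θ (kerI (C c)) = C c := by
      rw [kerI_C]
      exact θ.commutes c
    have hN : θ (kerI (r0 ^ 2 - C c * r0 * r1 + r1 ^ 2 * kerCub)) = 0 := by
      rw [map_add, map_add, map_sub, map_sub, map_mul, map_mul, map_mul, map_mul, map_mul, map_mul,
        map_pow, map_pow, map_pow, map_pow, hc]
      linear_combination (θ (kerI r0) - θ (kerI r1) * θ (X 2) - C c * θ (kerI r1)) * h1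
        + θ (kerI r1) ^ 2 * hz
    obtain ⟨e0, e1⟩ := ker_norm c r0 r1 (hinj _ hN)
    rw [hf, e0, e1]
    simp only [map_zero, Fin.isValue, zero_mul, add_zero, zero_add, dvd_mul_right]
  · rintro ⟨g, rfl⟩
    rw [map_mul, hθ, zero_mul]

/-- injectivity from generic surjectivity on points -/
theorem ker_inj (θ : A3 →ₐ[ℂ] P2) (G : P2) (hG : G ≠ 0)
    (hpt : ∀ x y : ℂ, MvPolynomial.eval ![x, y] G ≠ 0 →
      ∃ w : Fin 2 → ℂ, MvPolynomial.eval w (θ (X 0)) = x ∧ MvPolynomial.eval w (θ (X 1)) = y)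
    (N : P2) (hN : θ (kerI N) = 0) : N = 0 := by
  have hprod : N * G = 0 := by
    apply MvPolynomial.funext
    intro p
    have hp : p = ![p 0, p 1] := by
      ext i; fin_cases i <;> rfl
    rw [map_mul, map_zero]
    by_cases hg : MvPolynomial.eval p G = 0
    · rw [hg, mul_zero]
    · rw [hp] at hg
      obtain ⟨w, hx, hy⟩ := hpt (p 0) (p 1) hg
      have key : ∀ M : P2, MvPolynomial.eval w (θ (kerI M)) = MvPolynomial.eval p M := by
        intro M
        induction M using MvPolynomial.induction_on with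
        | C a =>
          rw [kerI_C]
          have := θ.commutes a
          rw [MvPolynomial.algebraMap_eq, MvPolynomial.algebraMap_eq] at this
          rw [this]; simp
        | add a b ha hb => rw [map_add, map_add, map_add, map_add, ha, hb]
        | mul_X a i ha =>
          rw [map_mul, map_mul, map_mul, map_mul, ha]
          fin_cases i
          · simp only [Fin.zero_eta, kerI_0, hx, eval_X]
          · simp only [Fin.mk_one, kerI_1, hy, eval_X]
      rw [← key N, hN]; simp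
  rcases mul_eq_zero.1 hprod with h | h
  · exact h
  · exact absurd h hG

theorem eta_X0 : eta (X 0) = phx (X 0) (X 1) := by simp [eta]
theorem eta_X1 : eta (X 1) = phy (X 0) (X 1) := by simp [eta]
theorem eta_X2 : eta (X 2) = phz (X 0) (X 1) := by simp [eta]

theorem etah_X0 : etah (X 0) = X 0 * (X 0 - 1) * X 1 ^ 2 := by simp [etah]
theorem etah_X1 : etah (X 1) = X 0 * (X 0 * (X 0 - 1) * X 1 ^ 2) := by simp [etah]
theorem etah_X2 : etah (X 2) = (X 0 * (X 0 - 1)) ^ 2 * X 1 ^ 3 := by simp [etah]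

theorem kerG_one : kerG 1 = F := by
  simp [kerG, F, fF]

theorem kerG_zero : kerG 0 = Fh := by
  simp [kerG, Fh]

theorem ker_eta_F : eta (kerG 1) = 0 := by
  rw [kerG_one, F]
  simp only [fF, map_add, map_mul, map_sub, map_pow, eta_X0, eta_X1, eta_X2]
  exact fF_ph (X 0 : P2) (X 1)

theorem ker_etah_F : etah (kerG 0) = 0 := by
  rw [kerG_zero, Fh]
  simp only [map_add, map_mul, map_sub, map_pow, etah_X0, etah_X1, etah_X2]
  ring

/-- points: existence of preimages for eta -/
theorem ker_pt (x y z : ℂ) (hF : z ^ 2 + z + x * y * (x - y) = 0)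
    (h1 : x ^ 2 + x + 1 ≠ 0) (h2 : x ^ 2 + x + 1 - x * y + (x + 1) * z ≠ 0) :
    ∃ b v : ℂ, phx b v = x ∧ phy b v = y := by
  refine ⟨(x * y + y - z) / (x ^ 2 + x + 1),
    x * (x ^ 2 + x + 1) / (x ^ 2 + x + 1 - x * y + (x + 1) * z), ?_⟩
  set b : ℂ := (x * y + y - z) / (x ^ 2 + x + 1) with hb
  set v : ℂ := x * (x ^ 2 + x + 1) / (x ^ 2 + x + 1 - x * y + (x + 1) * z) with hv
  have hb' : b * (x ^ 2 + x + 1) = x * y + y - z := div_mul_cancel₀ _ h1
  have hv' : v * (x ^ 2 + x + 1 - x * y + (x + 1) * z) = x * (x ^ 2 + x + 1) :=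
    div_mul_cancel₀ _ h2
  -- p = y - b(x+1)
  have hp : b * (b - 1) * v = y - b * (x + 1) := by
    have : (b * (b - 1) * v - (y - b * (x + 1))) * ((x ^ 2 + x + 1) ^ 2 *
        (x ^ 2 + x + 1 - x * y + (x + 1) * z)) = 0 := by
      linear_combination
        ((b * (x ^ 2 + x + 1)) ^ 2 - (x ^ 2 + x + 1) * (b * (x ^ 2 + x + 1))) * hv'
        + ((b * (x ^ 2 + x + 1) + (x * y + y - z) - (x ^ 2 + x + 1)) * x * (x ^ 2 + x + 1)
          + (x + 1) * (x ^ 2 + x + 1) * (x ^ 2 + x + 1 - x * y + (x + 1) * z)) * hb'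
        - (x ^ 2 + x + 1) ^ 2 * hF
    rcases mul_eq_zero.1 this with h | h
    · linear_combination h
    · exfalso
      rcases mul_eq_zero.1 h with h | h
      · exact h1 (pow_eq_zero_iff two_ne_zero |>.1 h)
      · exact h2 h
  have hx : phx b v = x := by
    simp only [phx]
    have : (v * (1 + b * (b - 1) * v) - x) * (x ^ 2 + x + 1) = 0 := by
      rw [hp]
      linear_combination hv' - v * (x + 1) * hb'
    rcases mul_eq_zero.1 this with h | h
    · linear_combination h
    · exact absurd h h1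
  refine ⟨hx, ?_⟩
  simp only [phy]
  rw [hx]
  linear_combination hp

/-- roots of monic quadratics -/
theorem ker_root (c d : ℂ) : ∃ z : ℂ, z ^ 2 + c * z + d = 0 := by
  obtain ⟨s, hs⟩ := IsAlgClosed.exists_pow_nat_eq (c ^ 2 - 4 * d) (n := 2) (by norm_num)
  refine ⟨(s - c) / 2, ?_⟩
  linear_combination hs / 4

/-- the exceptional polynomial for eta -/
noncomputable def kerE : P2 :=
  (X 0 ^ 2 + X 0 + 1) * ((X 0 ^ 2 + X 0 + 1 - X 0 * X 1) ^ 2
    - (X 0 ^ 2 + X 0 + 1 - X 0 * X 1) * (X 0 + 1) + (X 0 + 1) ^ 2 * (X 0 * X 1 * (X 0 - X 1)))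

theorem kerE_eval (x y : ℂ) : MvPolynomial.eval ![x, y] kerE =
    (x ^ 2 + x + 1) * ((x ^ 2 + x + 1 - x * y) ^ 2
    - (x ^ 2 + x + 1 - x * y) * (x + 1) + (x + 1) ^ 2 * (x * y * (x - y))) := by
  simp [kerE]

theorem kerE_ne : kerE ≠ 0 := by
  intro h
  have := kerE_eval 1 0
  rw [h, map_zero] at this
  norm_num at this

theorem ker_eta_inj (N : P2) (hN : eta (kerI N) = 0) : N = 0 := by
  refine ker_inj eta kerE kerE_ne ?_ N hN
  intro x y h
  rw [kerE_eval] at h
  obtain ⟨z, hz⟩ := ker_root 1 (x * y * (x - y))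
  have h1 : x ^ 2 + x + 1 ≠ 0 := left_ne_zero_of_mul h
  have h2 : x ^ 2 + x + 1 - x * y + (x + 1) * z ≠ 0 := by
    intro h0
    apply right_ne_zero_of_mul h
    linear_combination (x ^ 2 + x + 1 - x * y + (x + 1) * (- 1 - z)) * h0 + (x + 1) ^ 2 * hz
  obtain ⟨b, v, hx, hy⟩ := ker_pt x y z (by linear_combination hz) h1 h2
  refine ⟨![b, v], ?_, ?_⟩
  · rw [eta_X0]
    rw [← hx]
    simp only [phx, Fin.isValue, map_mul, eval_X, Matrix.cons_val_one, Matrix.cons_val_fin_one, map_add, map_one, Matrix.cons_val_zero, map_sub]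
  · rw [eta_X1]
    rw [← hy]
    simp only [phy, Fin.isValue, phx, map_add, map_mul, eval_X, Matrix.cons_val_zero, Matrix.cons_val_one, Matrix.cons_val_fin_one, map_one, map_sub]

theorem ker_etah_inj (N : P2) (hN : etah (kerI N) = 0) : N = 0 := by
  refine ker_inj etah (X 0 * X 1 * (X 1 - X 0)) ?_ ?_ N hN
  · intro h
    have := congrArg (MvPolynomial.eval ![(1:ℂ), 2]) h
    simp at this
    norm_num at this
  · intro x y h
    have h' : x * y * (y - x) ≠ 0 := by simpa using h
    have hx : x ≠ 0 := fun h0 => h' (by rw [h0]; ring)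
    have hy : y ≠ 0 := fun h0 => h' (by rw [h0]; ring)
    have hyx : y - x ≠ 0 := right_ne_zero_of_mul h'
    obtain ⟨v, hv⟩ := IsAlgClosed.exists_pow_nat_eq (x ^ 3 / (y * (y - x))) (n := 2) (by norm_num)
    have e1 : (y / x) * (y / x - 1) * v ^ 2 = x := by
      rw [hv]; field_simp
    refine ⟨![y / x, v], ?_, ?_⟩
    · rw [etah_X0]
      simpa only [Fin.isValue, map_mul, eval_X, Matrix.cons_val_zero, map_sub, map_one, map_pow,     Matrix.cons_val_one, Matrix.cons_val_fin_one] using e1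
    · rw [etah_X1]
      have : (y / x) * ((y / x) * (y / x - 1) * v ^ 2) = y := by
        rw [e1]; field_simp
      simpa only [Fin.isValue, map_mul, eval_X, Matrix.cons_val_zero, map_sub, map_one, map_pow,     Matrix.cons_val_one, Matrix.cons_val_fin_one] using this

theorem eta_eq_zero_iff (f : A3) : eta f = 0 ↔ F ∣ f := by
  rw [← kerG_one]
  exact ker_main 1 eta ker_eta_F ker_eta_inj f

theorem etah_eq_zero_iff (f : A3) : etah f = 0 ↔ Fh ∣ f := by
  rw [← kerG_zero]
  exact ker_main 0 etah ker_etah_F ker_etah_inj f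

end Vale.Agent.P295.Full
end

section

open MvPolynomial

namespace Vale.Agent.P295.Full

/-- Weighted homogeneous components of a product with a monomial. -/
theorem homog_whc_monomial_mul (s : Fin 3 →₀ ℕ) (k : ℂ) (g : A3) (n : ℤ) :
    weightedHomogeneousComponent wt n (monomial s k * g) =
      monomial s k * weightedHomogeneousComponent wt (n - Finsupp.weight wt s) g := by
  classical
  ext x
  rw [coeff_weightedHomogeneousComponent, coeff_monomial_mul', coeff_monomial_mul',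
    coeff_weightedHomogeneousComponent]
  by_cases h : s ≤ x
  · have h1 : Finsupp.weight wt x = Finsupp.weight wt s + Finsupp.weight wt (x - s) := by
      rw [← map_add, add_tsub_cancel_of_le h]
    rw [if_pos h, if_pos h, h1]
    by_cases h2 : Finsupp.weight wt (x - s) = n - Finsupp.weight wt s
    · rw [if_pos h2, if_pos (by omega)]
    · rw [if_neg h2, if_neg (by omega), mul_zero]
  · rw [if_neg h, if_neg h, ite_self]

/-- A derivation on a monomial. -/
theorem homog_D_monomial (D : Derivation ℂ A3 A3) (s : Fin 3 →₀ ℕ) (r : ℂ) :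
    D (monomial s r) =
      r • s.sum fun i k => monomial (s - Finsupp.single i 1) (k : ℂ) * D (X i) := by
  have h : D = mkDerivation ℂ (fun j => D (X j)) := by
    apply derivation_ext
    intro i
    rw [mkDerivation_X]
  conv_lhs => rw [h]
  rw [mkDerivation_monomial]
  rfl

/-- The leading part of a derivation. -/
noncomputable def homogPart (D : Derivation ℂ A3 A3) (e : ℤ) : Derivation ℂ A3 A3 :=
  mkDerivation ℂ (fun j => weightedHomogeneousComponent wt (wt j + e) (D (X j)))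

theorem homog_key_monomial (D : Derivation ℂ A3 A3) (e : ℤ)
    (he : ∀ j, ∀ d ∈ (D (X j)).support, Finsupp.weight wt d ≤ wt j + e)
    (s : Fin 3 →₀ ℕ) (r : ℂ) (n : ℤ) (hn : Finsupp.weight wt s + e ≤ n) :
    weightedHomogeneousComponent wt n (D (monomial s r)) =
      homogPart D e (weightedHomogeneousComponent wt (n - e) (monomial s r)) := by
  have hs : IsWeightedHomogeneous wt (monomial s r) (Finsupp.weight wt s) :=
    isWeightedHomogeneous_monomial wt s r rfl
  rw [homog_D_monomial, map_smul, Finsupp.sum, map_sum]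
  rcases hn.eq_or_lt with h | h
  · have h1 : n - e = Finsupp.weight wt s := by omega
    rw [h1, hs.weightedHomogeneousComponent_same, homog_D_monomial, Finsupp.sum]
    congr 1
    refine Finset.sum_congr rfl fun i hi => ?_
    have hi0 : s i ≠ 0 := Finsupp.mem_support_iff.1 hi
    have h2 := Finsupp.weight_sub_single_add (w := wt) hi0
    rw [homog_whc_monomial_mul, homogPart, mkDerivation_X]
    congr 3
    omega
  · rw [hs.weightedHomogeneousComponent_ne (n - e) (by omega), map_zero]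
    refine smul_eq_zero_of_right _ (Finset.sum_eq_zero fun i hi => ?_)
    have hi0 : s i ≠ 0 := Finsupp.mem_support_iff.1 hi
    have h2 := Finsupp.weight_sub_single_add (w := wt) hi0
    rw [homog_whc_monomial_mul, weightedHomogeneousComponent_eq_zero', mul_zero]
    intro d hd h3
    have := he i d hd
    omega

theorem homog_key (D : Derivation ℂ A3 A3) (e : ℤ)
    (he : ∀ j, ∀ d ∈ (D (X j)).support, Finsupp.weight wt d ≤ wt j + e)
    (f : A3) (m : ℤ) (hf : ∀ d ∈ f.support, Finsupp.weight wt d ≤ m) (n : ℤ)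
    (hn : m + e ≤ n) :
    weightedHomogeneousComponent wt n (D f) =
      homogPart D e (weightedHomogeneousComponent wt (n - e) f) := by
  have h1 : D f = ∑ d ∈ f.support, D (monomial d (coeff d f)) := by
    conv_lhs => rw [f.as_sum]
    rw [map_sum]
  have h2 : weightedHomogeneousComponent wt (n - e) f =
      ∑ d ∈ f.support, weightedHomogeneousComponent wt (n - e) (monomial d (coeff d f)) := by
    conv_lhs => rw [f.as_sum]
    rw [map_sum]
  rw [h1, h2, map_sum, map_sum]
  refine Finset.sum_congr rfl fun d hd => homog_key_monomial D e he d _ n ?_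
  have := hf d hd
  omega

theorem homog_support (D : Derivation ℂ A3 A3) (e : ℤ)
    (he : ∀ j, ∀ d ∈ (D (X j)).support, Finsupp.weight wt d ≤ wt j + e)
    (f : A3) (m : ℤ) (hf : ∀ d ∈ f.support, Finsupp.weight wt d ≤ m) :
    ∀ d ∈ (D f).support, Finsupp.weight wt d ≤ m + e := by
  classical
  intro d hd
  by_contra hcon
  push Not at hcon
  have h1 := homog_key D e he f m hf (Finsupp.weight wt d) hcon.le
  have h2 : weightedHomogeneousComponent wt (Finsupp.weight wt d - e) f = 0 := by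
    apply weightedHomogeneousComponent_eq_zero'
    intro d' hd' h3
    have := hf d' hd'
    omega
  rw [h2, map_zero] at h1
  have h3 := congrArg (coeff d) h1
  rw [coeff_weightedHomogeneousComponent, if_pos rfl, coeff_zero] at h3
  exact (mem_support_iff.1 hd) h3

theorem homog_support_of_homog {f : A3} {m : ℤ} (hf : IsWeightedHomogeneous wt f m) :
    ∀ d ∈ f.support, Finsupp.weight wt d ≤ m := fun _ hd => (hf (mem_support_iff.1 hd)).le

theorem homog_iterate (D : Derivation ℂ A3 A3) (e : ℤ)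
    (he : ∀ j, ∀ d ∈ (D (X j)).support, Finsupp.weight wt d ≤ wt j + e)
    (f : A3) (m : ℤ) (hf : IsWeightedHomogeneous wt f m) (n : ℕ) :
    (∀ d ∈ ((⇑D)^[n] f).support, Finsupp.weight wt d ≤ m + n * e) ∧
      weightedHomogeneousComponent wt (m + n * e) ((⇑D)^[n] f) = (⇑(homogPart D e))^[n] f := by
  induction n with
  | zero =>
    refine ⟨?_, ?_⟩
    · simpa only [Function.iterate_zero, id_eq, mem_support_iff, ne_eq, CharP.cast_eq_zero, zero_mul,     add_zero] using homog_support_of_homog hf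
    · simpa using hf.weightedHomogeneousComponent_same
  | succ n ih =>
    obtain ⟨h1, h2⟩ := ih
    have e1 : m + ((n + 1 : ℕ) : ℤ) * e = m + n * e + e := by push_cast; ring
    rw [e1, Function.iterate_succ_apply', Function.iterate_succ_apply']
    refine ⟨homog_support D e he _ _ h1, ?_⟩
    rw [homog_key D e he _ _ h1 _ le_rfl, add_sub_cancel_right, h2]

theorem homog_iterate_zero (D : Derivation ℂ A3 A3) (n : ℕ) : (⇑D)^[n] 0 = 0 := by
  induction n with
  | zero => rfl
  | succ n ih => rw [Function.iterate_succ_apply', ih, map_zero]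

theorem homog_iterate_add (D : Derivation ℂ A3 A3) (n : ℕ) (f g : A3) :
    (⇑D)^[n] (f + g) = (⇑D)^[n] f + (⇑D)^[n] g := by
  induction n with
  | zero => rfl
  | succ n ih => simp only [Function.iterate_succ_apply', ih, map_add]

theorem exists_homog (D : Derivation ℂ A3 A3) (hD : IsLN D) (h0 : D ≠ 0) (hF : D F = 0) :
    ∃ (e : ℤ) (D' : Derivation ℂ A3 A3), D' ≠ 0 ∧ IsLN D' ∧ D' Fh = 0 ∧
      ∀ m f, IsWeightedHomogeneous wt f m → IsWeightedHomogeneous wt (D' f) (m + e) := by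
  classical
  -- some `D (X j)` is nonzero
  obtain ⟨j₀, hj₀⟩ : ∃ j, D (X j) ≠ 0 := by
    by_contra hcon
    push Not at hcon
    apply h0
    apply derivation_ext
    intro i
    rw [hcon i]
    rfl
  obtain ⟨d₀, hd₀⟩ : (D (X j₀)).support.Nonempty := support_nonempty.2 hj₀
  -- the set of pairs
  let T : Finset (Fin 3 × (Fin 3 →₀ ℕ)) :=
    Finset.univ.biUnion fun j => (D (X j)).support.image fun d => (j, d)
  have hT : ∀ j d, (j, d) ∈ T ↔ d ∈ (D (X j)).support := by
    intro j d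
    simp only [Finset.mem_biUnion, Finset.mem_univ, Finset.mem_image, mem_support_iff, ne_eq, Prod.mk.injEq, exists_eq_right_right, true_and, exists_eq_right, T]
  obtain ⟨⟨j₁, d₁⟩, hm₁, hmax⟩ := T.exists_max_image
    (fun q => Finsupp.weight wt q.2 - wt q.1) ⟨(j₀, d₀), (hT _ _).2 hd₀⟩
  have hd₁ : d₁ ∈ (D (X j₁)).support := (hT _ _).1 hm₁
  obtain ⟨e, hedef⟩ : ∃ e : ℤ, e = Finsupp.weight wt d₁ - wt j₁ := ⟨_, rfl⟩
  have he : ∀ j, ∀ d ∈ (D (X j)).support, Finsupp.weight wt d ≤ wt j + e := by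
    intro j d hd
    have := hmax (j, d) ((hT _ _).2 hd)
    simp only at this
    omega
  refine ⟨e, homogPart D e, ?_, ?_, ?_, ?_⟩
  · -- nonzero
    intro h
    have h1 : homogPart D e (X j₁) = 0 := by rw [h]; rfl
    rw [homogPart, mkDerivation_X] at h1
    have h2 := congrArg (coeff d₁) h1
    rw [coeff_weightedHomogeneousComponent, if_pos (by omega), coeff_zero] at h2
    exact (mem_support_iff.1 hd₁) h2
  · -- locally nilpotent
    intro f
    induction f using MvPolynomial.induction_on' with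
    | monomial s r =>
      obtain ⟨n, hn⟩ := hD (monomial s r)
      refine ⟨n, ?_⟩
      rw [← (homog_iterate D e he _ _ (isWeightedHomogeneous_monomial wt s r rfl) n).2, hn,
        map_zero]
    | add f g hf hg =>
      obtain ⟨n, hn⟩ := hf
      obtain ⟨k, hk⟩ := hg
      refine ⟨n + k, ?_⟩
      rw [homog_iterate_add]
      have h1 : (⇑(homogPart D e))^[n + k] f = 0 := by
        rw [add_comm, Function.iterate_add_apply, hn, homog_iterate_zero]
      have h2 : (⇑(homogPart D e))^[n + k] g = 0 := by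
        rw [Function.iterate_add_apply, hk, homog_iterate_zero]
      rw [h1, h2, add_zero]
  · -- kills `Fh`
    have w0 : IsWeightedHomogeneous wt (X 0 : A3) 2 := isWeightedHomogeneous_X ℂ wt 0
    have w1 : IsWeightedHomogeneous wt (X 1 : A3) 2 := isWeightedHomogeneous_X ℂ wt 1
    have w2 : IsWeightedHomogeneous wt (X 2 : A3) 3 := isWeightedHomogeneous_X ℂ wt 2
    have hFh : IsWeightedHomogeneous wt Fh 6 := by
      have h1 : IsWeightedHomogeneous wt (X 2 ^ 2 : A3) 6 := by
        simpa using w2.pow 2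
      have h2 : IsWeightedHomogeneous wt (X 0 * X 1 * (X 0 - X 1) : A3) 6 := by
        simpa using (w0.mul w1).mul (w0.sub w1)
      exact h1.add h2
    have hFF : F = Fh + X 2 := by
      simp only [F, Fh, fF]
      ring
    have hsupp : ∀ d ∈ F.support, Finsupp.weight wt d ≤ 6 := by
      intro d hd
      rw [hFF] at hd
      rcases Finset.mem_union.1 (support_add hd) with h | h
      · exact homog_support_of_homog hFh d h
      · exact (homog_support_of_homog w2 d h).trans (by norm_num)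
    have h1 := homog_key D e he F 6 hsupp (6 + e) le_rfl
    rw [hF, map_zero, add_sub_cancel_right, hFF, map_add,
      hFh.weightedHomogeneousComponent_same,
      w2.weightedHomogeneousComponent_ne 6 (by norm_num), add_zero] at h1
    exact h1.symm
  · intro m f hf
    have h1 := homog_key D e he f m (homog_support_of_homog hf) (m + e) le_rfl
    rw [add_sub_cancel_right, hf.weightedHomogeneousComponent_same] at h1
    rw [← h1]
    exact weightedHomogeneousComponent_isWeightedHomogeneous _ _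

end Vale.Agent.P295.Full
end
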