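import Vale.Agent.P295.Bdl.B1

set_option linter.all false

section

/-!
No homogeneous locally nilpotent derivation: the induction, with the black boxes as hypotheses.
-/

set_option linter.unusedSimpArgs false

open MvPolynomial

namespace Vale.Agent.P295.Full

lemma nh_weight (d : Fin 3 →₀ ℕ) : Finsupp.weight wt d = 2 * (d 0 : ℤ) + 2 * d 1 + 3 * d 2 := by
  rw [Finsupp.weight_apply, Finsupp.sum_fintype _ _ (by simp)]
  simp only [Fin.sum_univ_three, wt, Matrix.cons_val_zero, Matrix.cons_val_one, Matrix.cons_val_two,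
    Matrix.tail_cons, Matrix.head_cons, nsmul_eq_mul, Matrix.cons_val]
  ring

lemma nh_const {f : A3} {m : ℤ} (hf : IsWeightedHomogeneous wt f m) (hm : m ≤ 1) :
    f = C (coeff 0 f) := by
  ext d
  rw [coeff_C]
  split_ifs with h
  · rw [← h]
  · by_contra hne
    have h1 := hf hne
    rw [nh_weight] at h1
    apply h
    have h2 : d 0 = 0 := by omega
    have h3 : d 1 = 0 := by omega
    have h4 : d 2 = 0 := by omega
    symm
    ext i
    fin_cases i
    · exact h2
    · exact h3
    · exact h4

lemma nh_Fh_hom : IsWeightedHomogeneous wt Fh 6 := by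
  have h0 : IsWeightedHomogeneous wt (X 0 : A3) 2 := isWeightedHomogeneous_X ℂ wt 0
  have h1 : IsWeightedHomogeneous wt (X 1 : A3) 2 := isWeightedHomogeneous_X ℂ wt 1
  have h2 : IsWeightedHomogeneous wt (X 2 : A3) 3 := isWeightedHomogeneous_X ℂ wt 2
  unfold Fh
  refine IsWeightedHomogeneous.add ?_ ?_
  · exact h2.pow 2
  · exact (h0.mul h1).mul (h0.sub h1)

lemma nh_Fh_ne : Fh ≠ 0 := by
  intro h
  have h1 := congrArg (eval ![0, 0, 1]) h
  simp [Fh] at h1

lemma nh_comp_mul {f : A3} {a : ℤ} (hf : IsWeightedHomogeneous wt f a) (k : ℤ) (g : A3) :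
    weightedHomogeneousComponent wt (a + k) (f * g) = f * weightedHomogeneousComponent wt k g := by
  have key : (weightedHomogeneousComponent wt (a + k)) ∘ₗ (LinearMap.mulLeft ℂ f) =
      (LinearMap.mulLeft ℂ f) ∘ₗ (weightedHomogeneousComponent wt k) := by
    refine MvPolynomial.linearMap_ext fun d => ?_
    refine LinearMap.ext fun c => ?_
    simp only [LinearMap.comp_apply, LinearMap.mulLeft_apply]
    have hd : IsWeightedHomogeneous wt (monomial d c : A3) (Finsupp.weight wt d) :=
      isWeightedHomogeneous_monomial wt d c rfl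
    by_cases h : Finsupp.weight wt d = k
    · rw [h] at hd
      rw [hd.weightedHomogeneousComponent_same, (hf.mul hd).weightedHomogeneousComponent_same]
    · rw [hd.weightedHomogeneousComponent_ne k (Ne.symm h), mul_zero]
      refine (hf.mul hd).weightedHomogeneousComponent_ne (a + k) ?_
      intro h'
      exact h (by linarith)
  exact LinearMap.congr_fun key g

lemma nh_quot {f g : A3} {a w : ℤ} (hf : IsWeightedHomogeneous wt f a) (hf0 : f ≠ 0)
    (h : IsWeightedHomogeneous wt (f * g) w) : IsWeightedHomogeneous wt g (w - a) := by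
  classical
  intro d hd
  by_contra hne
  have h1 : weightedHomogeneousComponent wt (a + Finsupp.weight wt d) (f * g) = 0 := by
    refine h.weightedHomogeneousComponent_ne _ ?_
    intro h'
    exact hne (by linarith)
  rw [nh_comp_mul hf] at h1
  have h2 := (mul_eq_zero.1 h1).resolve_left hf0
  have h3 := congrArg (coeff d) h2
  rw [coeff_weightedHomogeneousComponent, if_pos rfl, coeff_zero] at h3
  exact hd h3

lemma nh_DFh (D : Derivation ℂ A3 A3) : D Fh = 2 * X 2 * D (X 2) +
    (2 * X 0 * X 1 - X 1 ^ 2) * D (X 0) + (X 0 ^ 2 - 2 * X 0 * X 1) * D (X 1) := by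
  unfold Fh
  simp only [map_add, map_sub, Derivation.leibniz, Derivation.leibniz_pow, smul_eq_mul,
    nsmul_eq_mul]
  push_cast
  ring

lemma nh_base (e : ℤ) (he : e < 0) (D : Derivation ℂ A3 A3) (hF : D Fh = 0)
    (hh : ∀ m f, IsWeightedHomogeneous wt f m → IsWeightedHomogeneous wt (D f) (m + e)) :
    D = 0 := by
  have h0 := nh_const (hh 2 (X 0) (isWeightedHomogeneous_X ℂ wt 0)) (by omega)
  have h1 := nh_const (hh 2 (X 1) (isWeightedHomogeneous_X ℂ wt 1)) (by omega)
  rw [nh_DFh, h0, h1] at hF
  have e1 := congrArg (eval ![0, 1, 0]) hF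
  have e2 := congrArg (eval ![1, 0, 0]) hF
  simp at e1 e2
  rw [e1, e2, C_0, mul_zero, mul_zero, add_zero, add_zero] at hF
  rw [e1, C_0] at h0
  rw [e2, C_0] at h1
  have h2 : D (X 2) = 0 := by
    have h3 : (2 * X 2 : A3) ≠ 0 := by
      intro h
      have := congrArg (eval ![0, 0, 1]) h
      simp at this
    exact (mul_eq_zero.1 hF).resolve_left h3
  refine MvPolynomial.derivation_ext fun i => ?_
  fin_cases i
  · exact h0
  · exact h1
  · exact h2

lemma nh_iter_hom {e : ℤ} {D : Derivation ℂ A3 A3}
    (hh : ∀ m f, IsWeightedHomogeneous wt f m → IsWeightedHomogeneous wt (D f) (m + e))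
    {f : A3} {m : ℤ} (hf : IsWeightedHomogeneous wt f m) (n : ℕ) :
    IsWeightedHomogeneous wt ((⇑D)^[n] f) (m + n * e) := by
  induction n with
  | zero => simpa using hf
  | succ n ih =>
    rw [Function.iterate_succ_apply']
    have := hh _ _ ih
    convert this using 1
    push_cast
    ring

theorem nh_aux
    (Hexp : ∀ (D : Derivation ℂ A3 A3) (η : A3 →ₐ[ℂ] P2), (∀ a, η a = 0 → η (D a) = 0) →
      (∀ a, ∃ n : ℕ, η ((⇑D)^[n] a) = 0) → ∃ E : A3 →ₐ[ℂ] Polynomial P2,
        (∀ a, E (D a) = Polynomial.derivative (E a)) ∧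
        (∀ a, (E a).coeff 0 = η a) ∧ (∀ a, η a = 0 → E a = 0))
    (Hsmul : ∀ (D D' : Derivation ℂ A3 A3) (f : A3), f ≠ 0 → IsLN D →
      (∀ a, D a = f * D' a) → D' f = 0 ∧ IsLN D')
    (Hker : ∀ f : A3, etah f = 0 ↔ Fh ∣ f)
    (Hform : ∀ (x y z : Polynomial P2), z ^ 2 = x * y * (y - x) → ∀ (g : A3) (m : ℤ), 0 < m →
      IsWeightedHomogeneous wt g m → aeval ![x, y, z] g ≠ 0 →
      Polynomial.derivative (aeval ![x, y, z] g) = 0 →
      Polynomial.derivative x = 0 ∧ Polynomial.derivative y = 0 ∧ Polynomial.derivative z = 0)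
    (n : ℕ) : ∀ (e : ℤ) (_ : e < n) (D : Derivation ℂ A3 A3) (_ : IsLN D)
    (_ : D Fh = 0)
    (_ : ∀ m f, IsWeightedHomogeneous wt f m → IsWeightedHomogeneous wt (D f) (m + e)),
    D = 0 := by
  induction n with
  | zero =>
    intro e he D _ hF hh
    exact nh_base e (by simpa using he) D hF hh
  | succ n ih =>
    intro e he D hLN hF hh
    by_cases he0 : e < 0
    · exact nh_base e he0 D hF hh
    push Not at he0
    by_cases hdiv : ∀ j, Fh ∣ D (X j)
    · choose g hg using hdiv
      set D1 : Derivation ℂ A3 A3 := mkDerivation ℂ g with hD1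
      have hD : ∀ a, D a = Fh * D1 a := by
        intro a
        have h1 : D = Fh • D1 := by
          refine MvPolynomial.derivation_ext fun i => ?_
          rw [Derivation.smul_apply, hD1, mkDerivation_X, smul_eq_mul, hg]
        rw [h1, Derivation.smul_apply, smul_eq_mul]
      obtain ⟨h1, h2⟩ := Hsmul D D1 Fh nh_Fh_ne hLN hD
      have h3 := ih (e - 6) (by push_cast at he; omega) D1 h2 h1 (by
        intro m f hf
        have h4 := hh m f hf
        rw [hD] at h4
        have h5 := nh_quot nh_Fh_hom nh_Fh_ne h4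
        convert h5 using 1
        ring)
      refine Derivation.ext fun a => ?_
      rw [hD, h3]
      simp
    · exfalso
      push Not at hdiv
      obtain ⟨j, hj⟩ := hdiv
      obtain ⟨E, hE1, hE2, hE3⟩ := Hexp D etah
        (by
          intro a ha
          obtain ⟨c, rfl⟩ := (Hker a).1 ha
          rw [Derivation.leibniz, hF, smul_zero, add_zero, smul_eq_mul]
          exact (Hker _).2 (dvd_mul_right _ _))
        (by
          intro a
          obtain ⟨k, hk⟩ := hLN a
          exact ⟨k, by rw [hk, map_zero]⟩)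
      set x := E (X 0) with hx
      set y := E (X 1) with hy
      set z := E (X 2) with hz
      have hEF : E Fh = 0 := hE3 _ ((Hker _).2 dvd_rfl)
      have hrel : z ^ 2 = x * y * (y - x) := by
        have h1 : z ^ 2 + x * y * (x - y) = 0 := by
          rw [← hEF, Fh]
          simp [hx, hy, hz]
        linear_combination h1
      have hEa : ∀ g : A3, aeval ![x, y, z] g = E g := by
        intro g
        have h1 : (aeval ![x, y, z] : A3 →ₐ[ℂ] Polynomial P2) = E := by
          refine MvPolynomial.algHom_ext fun i => ?_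
          rw [aeval_X]
          fin_cases i <;> rfl
        rw [h1]
      have hder : Polynomial.derivative (E (X j)) ≠ 0 := by
        intro h0
        rw [← hE1] at h0
        have h1 := hE2 (D (X j))
        rw [h0, Polynomial.coeff_zero] at h1
        exact hj ((Hker _).1 h1.symm)
      have hiter : ∀ k : ℕ, E ((⇑D)^[k] (X j)) = Polynomial.derivative^[k] (E (X j)) := by
        intro k
        induction k with
        | zero => rfl
        | succ k ihk =>
          rw [Function.iterate_succ_apply', Function.iterate_succ_apply', hE1, ihk]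
      set N := (E (X j)).natDegree with hN
      have hne : E (X j) ≠ 0 := by
        intro h0
        rw [h0] at hder
        exact hder (by simp)
      have hg0 : E ((⇑D)^[N] (X j)) ≠ 0 := by
        rw [hiter, hN]
        intro h0
        have h1 := Polynomial.coeff_iterate_derivative (p := E (X j)) (k := (E (X j)).natDegree) 0
        rw [h0, Polynomial.coeff_zero, zero_add, Nat.descFactorial_self, eq_comm] at h1
        rw [nsmul_eq_mul, mul_eq_zero] at h1
        rcases h1 with h1 | h1
        · exact (Nat.cast_ne_zero.2 (Nat.factorial_ne_zero _)) h1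
        · exact hne (Polynomial.leadingCoeff_eq_zero.1 h1)
      have hg1 : Polynomial.derivative (E ((⇑D)^[N] (X j))) = 0 := by
        rw [hiter]
        have h1 := Polynomial.iterate_derivative_eq_zero (p := E (X j)) (x := N + 1)
          (Nat.lt_succ_self _)
        rw [Function.iterate_succ_apply'] at h1
        exact h1
      have hwt : 0 < wt j := by
        fin_cases j <;> simp [wt]
      have hhom := nh_iter_hom hh (isWeightedHomogeneous_X ℂ wt j) N
      have hpos : 0 < wt j + N * e := by
        have : 0 ≤ (N : ℤ) * e := by positivity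
        omega
      obtain ⟨r1, r2, r3⟩ := Hform x y z hrel _ _ hpos hhom (by rw [hEa]; exact hg0)
        (by rw [hEa]; exact hg1)
      apply hder
      fin_cases j
      · exact r1
      · exact r2
      · exact r3

end Vale.Agent.P295.Full
end

section

open MvPolynomial

namespace Vale.Agent.P295.Full

/-- char zero of a nontrivial complex algebra -/
theorem rp_charZero (P : Type) [CommRing P] [IsDomain P] [Algebra ℂ P] : CharZero P :=
  charZero_of_injective_algebraMap (R := ℂ) (FaithfulSMul.algebraMap_injective ℂ P)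

theorem rp_core {P : Type} [CommRing P] [IsDomain P] [CharZero P] (y z : Polynomial P)
    (l r : P) (hl : l ≠ 0)
    (hz : z ^ 2 = (Polynomial.C l + Polynomial.C r * y) * y *
      (y - (Polynomial.C l + Polynomial.C r * y))) : Polynomial.derivative y = 0 := by
  by_contra hy'
  have hdeg : y.natDegree ≠ 0 := fun h => hy' (Polynomial.derivative_of_natDegree_zero h)
  have hlt := Polynomial.natDegree_derivative_lt hdeg
  have hd := congrArg Polynomial.derivative hz
  simp only [sq, Polynomial.derivative_mul, Polynomial.derivative_add, Polynomial.derivative_sub,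
    Polynomial.derivative_C, zero_mul, zero_add] at hd
  have hkey : Polynomial.C l ^ 4 * Polynomial.derivative y =
      z * ((-6 * (Polynomial.C r * (1 - Polynomial.C r)) *
          (1 - Polynomial.C r * (1 - Polynomial.C r)) * y +
      (1 - 2 * Polynomial.C r) * (Polynomial.C r * (1 - Polynomial.C r) - 4) * Polynomial.C l) *
        z * Polynomial.derivative y +
      2 * (2 * (Polynomial.C r * (1 - Polynomial.C r)) *
        (1 - Polynomial.C r * (1 - Polynomial.C r)) * y ^ 2 +
        (1 - 2 * Polynomial.C r) * (2 - Polynomial.C r * (1 - Polynomial.C r)) * y *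
          Polynomial.C l - Polynomial.C l ^ 2) * Polynomial.derivative z) := by
    linear_combination (-((-6 * (Polynomial.C r * (1 - Polynomial.C r)) *
          (1 - Polynomial.C r * (1 - Polynomial.C r)) * y +
      (1 - 2 * Polynomial.C r) * (Polynomial.C r * (1 - Polynomial.C r) - 4) * Polynomial.C l) *
      Polynomial.derivative y)) * hz -
      (2 * (Polynomial.C r * (1 - Polynomial.C r)) *
        (1 - Polynomial.C r * (1 - Polynomial.C r)) * y ^ 2 +
        (1 - 2 * Polynomial.C r) * (2 - Polynomial.C r * (1 - Polynomial.C r)) * y *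
          Polynomial.C l - Polynomial.C l ^ 2) * hd
  have hne : Polynomial.C l ^ 4 * Polynomial.derivative y ≠ 0 :=
    mul_ne_zero (pow_ne_zero _ (Polynomial.C_ne_zero.2 hl)) hy'
  have h1 : z.natDegree ≤ (Polynomial.derivative y).natDegree := by
    have h2 := Polynomial.natDegree_le_of_dvd (Dvd.intro _ hkey.symm) hne
    rwa [← Polynomial.C_pow, Polynomial.natDegree_C_mul (pow_ne_zero _ hl)] at h2
  -- the degree of the right side
  have hy0 : y ≠ 0 := by
    rintro rfl
    exact hdeg Polynomial.natDegree_zero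
  have hA : Polynomial.C l + Polynomial.C r * y ≠ 0 := by
    intro h0
    have h2 := congrArg Polynomial.natDegree h0
    rw [Polynomial.natDegree_C_add, Polynomial.natDegree_zero] at h2
    by_cases hr : r = 0
    · rw [hr, Polynomial.C_0, zero_mul, add_zero] at h0
      exact hl (Polynomial.C_eq_zero.1 h0)
    · rw [Polynomial.natDegree_C_mul hr] at h2
      exact hdeg h2
  have hBeq : y - (Polynomial.C l + Polynomial.C r * y) =
      Polynomial.C (-l) + Polynomial.C (1 - r) * y := by
    rw [Polynomial.C_neg, Polynomial.C_sub, Polynomial.C_1]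
    ring
  have hB : y - (Polynomial.C l + Polynomial.C r * y) ≠ 0 := by
    rw [hBeq]
    intro h0
    have h2 := congrArg Polynomial.natDegree h0
    rw [Polynomial.natDegree_C_add, Polynomial.natDegree_zero] at h2
    by_cases hr : 1 - r = 0
    · rw [hr, Polynomial.C_0, zero_mul, add_zero] at h0
      exact hl (neg_eq_zero.1 (Polynomial.C_eq_zero.1 h0))
    · rw [Polynomial.natDegree_C_mul hr] at h2
      exact hdeg h2
  have h3 := congrArg Polynomial.natDegree hz
  rw [Polynomial.natDegree_pow, Polynomial.natDegree_mul (mul_ne_zero hA hy0) hB,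
    Polynomial.natDegree_mul hA hy0, hBeq, Polynomial.natDegree_C_add,
    Polynomial.natDegree_C_add] at h3
  by_cases hr : r = 0
  · have h4 : (Polynomial.C (1 - r) * y).natDegree = y.natDegree := by
      rw [hr, sub_zero, Polynomial.C_1, one_mul]
    omega
  · have h4 : (Polynomial.C r * y).natDegree = y.natDegree := Polynomial.natDegree_C_mul hr
    omega

theorem rp_core0 {P : Type} [CommRing P] [IsDomain P] [CharZero P] (x z : Polynomial P)
    (l : P) (hl : l ≠ 0)
    (hz : z ^ 2 = x * Polynomial.C l * (Polynomial.C l - x)) :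
    Polynomial.derivative x = 0 := by
  by_contra hy'
  have hdeg : x.natDegree ≠ 0 := fun h => hy' (Polynomial.derivative_of_natDegree_zero h)
  have hlt := Polynomial.natDegree_derivative_lt hdeg
  have hd := congrArg Polynomial.derivative hz
  simp only [sq, Polynomial.derivative_mul, Polynomial.derivative_sub,
    Polynomial.derivative_C, mul_zero, add_zero, zero_sub] at hd
  have hkey : Polynomial.C l ^ 3 * Polynomial.derivative x =
      z * ((Polynomial.C l - 2 * x) * 2 * Polynomial.derivative z +
        4 * z * Polynomial.derivative x) := by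
    linear_combination (-4 * Polynomial.derivative x) * hz - (Polynomial.C l - 2 * x) * hd
  have hne : Polynomial.C l ^ 3 * Polynomial.derivative x ≠ 0 :=
    mul_ne_zero (pow_ne_zero _ (Polynomial.C_ne_zero.2 hl)) hy'
  have h1 : z.natDegree ≤ (Polynomial.derivative x).natDegree := by
    have h2 := Polynomial.natDegree_le_of_dvd (Dvd.intro _ hkey.symm) hne
    rwa [← Polynomial.C_pow, Polynomial.natDegree_C_mul (pow_ne_zero _ hl)] at h2
  have hy0 : x ≠ 0 := by
    rintro rfl
    exact hdeg Polynomial.natDegree_zero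
  have hBeq : Polynomial.C l - x = Polynomial.C l + Polynomial.C (-1) * x := by
    rw [Polynomial.C_neg, Polynomial.C_1]
    ring
  have hone : (-1 : P) ≠ 0 := neg_ne_zero.2 one_ne_zero
  have hB : Polynomial.C l - x ≠ 0 := by
    rw [hBeq]
    intro h0
    have h2 := congrArg Polynomial.natDegree h0
    rw [Polynomial.natDegree_C_add, Polynomial.natDegree_zero,
      Polynomial.natDegree_C_mul hone] at h2
    exact hdeg h2
  have h3 := congrArg Polynomial.natDegree hz
  rw [Polynomial.natDegree_pow, Polynomial.natDegree_mul (mul_ne_zero hy0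
    (Polynomial.C_ne_zero.2 hl)) hB, Polynomial.natDegree_mul_C hl, hBeq,
    Polynomial.natDegree_C_add, Polynomial.natDegree_C_mul hone] at h3
  omega

/-- a square with vanishing derivative -/
theorem rp_sq {P : Type} [CommRing P] [IsDomain P] [CharZero P] (z : Polynomial P)
    (h : Polynomial.derivative (z ^ 2) = 0) : Polynomial.derivative z = 0 := by
  rw [sq, Polynomial.derivative_mul] at h
  have h2 : (2 : Polynomial P) * (z * Polynomial.derivative z) = 0 := by
    linear_combination h
  have h3 : (2 : Polynomial P) ≠ 0 := by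
    have : (2 : Polynomial P) = Polynomial.C 2 := by rw [Polynomial.C_ofNat]
    rw [this]
    exact Polynomial.C_ne_zero.2 two_ne_zero
  rcases mul_eq_zero.1 ((mul_eq_zero.1 h2).resolve_left h3) with h4 | h4
  · rw [h4, Polynomial.derivative_zero]
  · exact h4

theorem rigid_poly {P : Type} [CommRing P] [IsDomain P] [Algebra ℂ P] (x y z : Polynomial P)
    (hz : z ^ 2 = x * y * (y - x)) (α β : ℂ) (hL : α • x + β • y ≠ 0)
    (hL' : Polynomial.derivative (α • x + β • y) = 0) :
    Polynomial.derivative x = 0 ∧ Polynomial.derivative y = 0 ∧ Polynomial.derivative z = 0 := by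
  have := rp_charZero P
  obtain ⟨L, hLdef⟩ : ∃ L, L = α • x + β • y := ⟨_, rfl⟩
  rw [← hLdef] at hL hL'
  have hLc : L = Polynomial.C (L.coeff 0) :=
    Polynomial.eq_C_of_natDegree_eq_zero (Polynomial.derivative_eq_zero.1 hL')
  have hl0 : L.coeff 0 ≠ 0 := by
    intro h
    rw [h, Polynomial.C_0] at hLc
    exact hL hLc
  have hsm : ∀ (c : ℂ) (p : Polynomial P), c • p = Polynomial.C (algebraMap ℂ P c) * p := by
    intro c p
    rw [Algebra.smul_def, Polynomial.algebraMap_apply]
  by_cases hα : α = 0
  · have hβ : β ≠ 0 := by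
      rintro rfl
      rw [hα, zero_smul, zero_smul, add_zero] at hLdef
      exact hL hLdef
    -- `y` is constant
    have hy : y = Polynomial.C (algebraMap ℂ P β⁻¹ * L.coeff 0) := by
      rw [Polynomial.C_mul, ← hLc, hLdef, hα, zero_smul, zero_add, ← hsm, smul_smul,
        inv_mul_cancel₀ hβ, one_smul]
    have hl : algebraMap ℂ P β⁻¹ * L.coeff 0 ≠ 0 := by
      refine mul_ne_zero ?_ hl0
      rw [map_ne_zero_iff _ (FaithfulSMul.algebraMap_injective ℂ P)]
      exact inv_ne_zero hβ
    have hy' : Polynomial.derivative y = 0 := by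
      rw [hy, Polynomial.derivative_C]
    have hx' : Polynomial.derivative x = 0 := by
      apply rp_core0 x z _ hl
      rw [← hy]
      exact hz
    refine ⟨hx', hy', rp_sq z ?_⟩
    rw [hz, Polynomial.derivative_mul, Polynomial.derivative_mul, Polynomial.derivative_sub, hx',
      hy']
    ring
  · have hx : x = Polynomial.C (algebraMap ℂ P α⁻¹ * L.coeff 0) +
        Polynomial.C (algebraMap ℂ P (-(α⁻¹ * β))) * y := by
      rw [Polynomial.C_mul, ← hLc, hLdef, ← hsm, ← hsm, smul_add, smul_smul, smul_smul,
        inv_mul_cancel₀ hα, one_smul, neg_smul]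
      ring
    have hl : algebraMap ℂ P α⁻¹ * L.coeff 0 ≠ 0 := by
      refine mul_ne_zero ?_ hl0
      rw [map_ne_zero_iff _ (FaithfulSMul.algebraMap_injective ℂ P)]
      exact inv_ne_zero hα
    have hy' : Polynomial.derivative y = 0 := by
      apply rp_core y z _ _ hl
      rw [← hx]
      exact hz
    have hx' : Polynomial.derivative x = 0 := by
      rw [hx, Polynomial.derivative_add, Polynomial.derivative_mul, Polynomial.derivative_C,
        Polynomial.derivative_C, hy']
      ring
    refine ⟨hx', hy', rp_sq z ?_⟩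
    rw [hz, Polynomial.derivative_mul, Polynomial.derivative_mul, Polynomial.derivative_sub, hx',
      hy']
    ring

/-- divisors of nonzero constants are constant -/
theorem rp_dvd {P : Type} [CommRing P] [IsDomain P] [CharZero P] {f g : Polynomial P}
    (hfg : f ∣ g) (hg : g ≠ 0) (h : Polynomial.derivative g = 0) :
    Polynomial.derivative f = 0 := by
  apply Polynomial.derivative_of_natDegree_zero
  have h1 := Polynomial.natDegree_le_of_dvd hfg hg
  have h2 : g.natDegree = 0 := Polynomial.derivative_eq_zero.1 h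
  omega

/-- evaluation of a polynomial as a sum over its monomials -/
theorem rp_aeval {P : Type} [CommRing P] [Algebra ℂ P] (x y z : P) (g : A3) :
    aeval ![x, y, z] g = ∑ d ∈ g.support,
      algebraMap ℂ P (coeff d g) * (x ^ d 0 * y ^ d 1 * z ^ d 2) := by
  rw [aeval_def, eval₂_eq']
  apply Finset.sum_congr rfl
  intro d _
  rw [Fin.prod_univ_three]
  rfl

theorem rp_weight {g : A3} {m : ℤ} (hg : IsWeightedHomogeneous wt g m) {d : Fin 3 →₀ ℕ}
    (hd : d ∈ g.support) : 2 * (d 0 : ℤ) + 2 * (d 1 : ℤ) + 3 * (d 2 : ℤ) = m := by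
  have h1 := hg (mem_support_iff.1 hd)
  rw [Finsupp.weight_apply, Finsupp.sum_fintype _ _ (by simp), Fin.sum_univ_three] at h1
  simp only [wt, nsmul_eq_mul] at h1
  rw [← h1]
  simp
  ring

/-- the homogeneous form in two variables splits into linear factors -/
theorem rp_split {P : Type} [CommRing P] [IsDomain P] [Algebra ℂ P] (x y z : P)
    (hx : x ≠ 0) (hz : z ^ 2 = x * y * (y - x)) (g : A3) (k : ℕ)
    (hg : ∀ d ∈ g.support, ∃ l, d 2 = 2 * l ∧ d 0 + d 1 + 3 * l = k) :
    ∃ (c : ℂ) (s : Multiset ℂ), Multiset.card s ≤ k ∧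
      aeval ![x, y, z] g = algebraMap ℂ P c * x ^ (k - Multiset.card s) *
        (s.map (fun a => y - a • x)).prod := by
  classical
  set K := FractionRing P
  set φ := algebraMap P K with hφ
  have hφi : Function.Injective φ := IsFractionRing.injective P K
  have hx' : φ x ≠ 0 := by rwa [Ne, map_eq_zero_iff φ hφi]
  set T : K := φ y / φ x with hT
  have hTx : φ y = T * φ x := by rw [hT, div_mul_cancel₀ _ hx']
  set ψ : ℂ →+* K := φ.comp (algebraMap ℂ P) with hψ
  set p : Polynomial ℂ := ∑ d ∈ g.support, Polynomial.C (coeff d g) *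
    (Polynomial.X ^ (d 1 + d 2 / 2) * (Polynomial.X - Polynomial.C 1) ^ (d 2 / 2)) with hp
  have hpdeg : p.natDegree ≤ k := by
    rw [hp]
    apply Polynomial.natDegree_sum_le_of_forall_le
    intro d hd
    obtain ⟨l, hl1, hl2⟩ := hg d hd
    refine (Polynomial.natDegree_C_mul_le _ _).trans ?_
    refine Polynomial.natDegree_mul_le.trans ?_
    rw [Polynomial.natDegree_X_pow, Polynomial.natDegree_pow, Polynomial.natDegree_X_sub_C, hl1,
      Nat.mul_div_cancel_left _ (by norm_num)]
    omega
  have heval : φ (aeval ![x, y, z] g) = φ x ^ k * p.eval₂ ψ T := by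
    rw [rp_aeval, map_sum, hp, Polynomial.eval₂_finsetSum, Finset.mul_sum]
    apply Finset.sum_congr rfl
    intro d hd
    obtain ⟨l, hl1, hl2⟩ := hg d hd
    rw [Polynomial.eval₂_mul, Polynomial.eval₂_C, Polynomial.eval₂_mul, Polynomial.eval₂_pow,
      Polynomial.eval₂_X, Polynomial.eval₂_pow, Polynomial.eval₂_sub, Polynomial.eval₂_X,
      Polynomial.eval₂_C, ψ.map_one, hl1, Nat.mul_div_cancel_left _ (by norm_num), pow_mul z 2 l,
      hz, map_mul, map_mul, map_mul, map_pow, map_pow, map_pow, map_mul, map_mul, map_sub, hTx,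
      ← hl2]
    show ψ (coeff d g) * _ = _
    have h1 : φ x * (T * φ x) * (T * φ x - φ x) = φ x ^ 3 * T * (T - 1) := by ring
    rw [h1, mul_pow T, mul_pow (φ x ^ 3 * T), mul_pow (φ x ^ 3), ← pow_mul, pow_add, pow_add,
      pow_add]
    ring
  refine ⟨p.leadingCoeff, p.roots, ?_, ?_⟩
  · exact (Polynomial.card_roots' p).trans hpdeg
  · apply hφi
    rw [heval]
    have hsp := (IsAlgClosed.splits p).eq_prod_roots
    conv_lhs => rw [hsp]
    have hn : Multiset.card p.roots ≤ k := (Polynomial.card_roots' p).trans hpdeg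
    rw [Polynomial.eval₂_mul, Polynomial.eval₂_C, map_mul, map_mul, map_pow]
    have hprod : ∀ s : Multiset ℂ, φ x ^ Multiset.card s *
        Polynomial.eval₂ ψ T (s.map (fun a => Polynomial.X - Polynomial.C a)).prod =
        φ ((s.map (fun a => y - a • x)).prod) := by
      intro s
      induction s using Multiset.induction_on with
      | empty => simp
      | cons a s ih =>
        rw [Multiset.card_cons, Multiset.map_cons, Multiset.prod_cons, Multiset.map_cons,
          Multiset.prod_cons, Polynomial.eval₂_mul, map_mul, ← ih, Polynomial.eval₂_sub,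
          Polynomial.eval₂_X, Polynomial.eval₂_C, map_sub, hTx, Algebra.smul_def, map_mul]
        show _ = (T * φ x - ψ a * φ x) * _
        ring
    rw [← hprod]
    obtain ⟨t, ht⟩ := Nat.exists_eq_add_of_le hn
    rw [ht, Nat.add_sub_cancel_left, pow_add]
    show _ = ψ _ * _ * _
    ring

theorem rigid_form {P : Type} [CommRing P] [IsDomain P] [Algebra ℂ P] (x y z : Polynomial P)
    (hz : z ^ 2 = x * y * (y - x)) (g : A3) (m : ℤ) (hm : 0 < m)
    (hg : IsWeightedHomogeneous wt g m) (h1 : aeval ![x, y, z] g ≠ 0)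
    (h2 : Polynomial.derivative (aeval ![x, y, z] g) = 0) :
    Polynomial.derivative x = 0 ∧ Polynomial.derivative y = 0 ∧ Polynomial.derivative z = 0 := by
  have := rp_charZero P
  have hsum := rp_aeval x y z g
  have hw : ∀ d ∈ g.support, 2 * (d 0 : ℤ) + 2 * (d 1 : ℤ) + 3 * (d 2 : ℤ) = m :=
    fun d hd => rp_weight hg hd
  rcases Int.emod_two_eq_zero_or_one m with hpar | hpar
  · -- even weight
    obtain ⟨k, hk⟩ : ∃ k : ℕ, m = 2 * k := ⟨(m / 2).toNat, by omega⟩
    have hg2 : ∀ d ∈ g.support, ∃ l, d 2 = 2 * l ∧ d 0 + d 1 + 3 * l = k := by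
      intro d hd
      have := hw d hd
      exact ⟨d 2 / 2, by omega, by omega⟩
    by_cases hx : x = 0
    · -- `x = 0`
      have hz0 : z = 0 := by
        have h3 : z ^ 2 = 0 := by rw [hz, hx]; ring
        exact pow_eq_zero_iff (two_ne_zero) |>.1 h3
      have hyd : y ∣ aeval ![x, y, z] g := by
        rw [hsum]
        apply Finset.dvd_sum
        intro d hd
        obtain ⟨l, hl1, hl2⟩ := hg2 d hd
        rcases Nat.eq_zero_or_pos (d 1) with h3 | h3
        · rcases Nat.eq_zero_or_pos (d 0) with h4 | h4
          · have h5 : d 2 ≠ 0 := by omega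
            rw [hz0, zero_pow h5, mul_zero, mul_zero]
            exact dvd_zero _
          · rw [hx, zero_pow (by omega), zero_mul, zero_mul, mul_zero]
            exact dvd_zero _
        · exact Dvd.dvd.mul_left (Dvd.dvd.mul_right (Dvd.dvd.mul_left
            (dvd_pow_self y (by omega)) _) _) _
      refine ⟨by rw [hx, Polynomial.derivative_zero], rp_dvd hyd h1 h2, by
        rw [hz0, Polynomial.derivative_zero]⟩
    · obtain ⟨c, s, hs, hform⟩ := rp_split x y z hx hz g k hg2
      rcases Nat.eq_or_lt_of_le hs with hs' | hs'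
      · -- a root
        have hpos : 0 < Multiset.card s := by omega
        obtain ⟨a, ha⟩ := Multiset.card_pos_iff_exists_mem.1 hpos
        have hd : (y - a • x) ∣ aeval ![x, y, z] g := by
          rw [hform]
          exact Dvd.dvd.mul_left (Multiset.dvd_prod (Multiset.mem_map_of_mem _ ha)) _
        have hne : y - a • x ≠ 0 := by
          intro h0
          rw [h0, zero_dvd_iff] at hd
          exact h1 hd
        have heq : (-a) • x + (1 : ℂ) • y = y - a • x := by
          rw [neg_smul, one_smul]
          ring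
        exact rigid_poly x y z hz (-a) 1 (by rwa [heq]) (by rw [heq]; exact rp_dvd hd h1 h2)
      · have hd : x ∣ aeval ![x, y, z] g := by
          rw [hform]
          exact Dvd.dvd.mul_right (Dvd.dvd.mul_left (dvd_pow_self x (by omega)) _) _
        have heq : (1 : ℂ) • x + (0 : ℂ) • y = x := by
          rw [zero_smul, one_smul, add_zero]
        exact rigid_poly x y z hz 1 0 (by rwa [heq]) (by rw [heq]; exact rp_dvd hd h1 h2)
  · -- odd weight
    have hzd : z ∣ aeval ![x, y, z] g := by
      rw [hsum]
      apply Finset.dvd_sum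
      intro d hd
      have h3 := hw d hd
      exact Dvd.dvd.mul_left (Dvd.dvd.mul_left (dvd_pow_self z (by omega)) _) _
    have hz' := rp_dvd hzd h1 h2
    have hz0 : z ≠ 0 := by
      rintro rfl
      rw [zero_dvd_iff] at hzd
      exact h1 hzd
    have hz2 : z ^ 2 ≠ 0 := pow_ne_zero _ hz0
    have hz2' : Polynomial.derivative (z ^ 2) = 0 := by
      rw [sq, Polynomial.derivative_mul, hz']
      ring
    rw [hz] at hz2 hz2'
    exact ⟨rp_dvd (Dvd.dvd.mul_right (Dvd.intro _ rfl) _) hz2 hz2',
      rp_dvd (Dvd.dvd.mul_right (Dvd.intro_left _ rfl) _) hz2 hz2', hz'⟩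

end Vale.Agent.P295.Full
end

section

open MvPolynomial

namespace Vale.Agent.P295.Full

/-! ## T6: no homogeneous LND -/
theorem no_homog (e : ℤ) (D : Derivation ℂ A3 A3) (hLN : IsLN D) (hF : D Fh = 0)
    (hh : ∀ m f, IsWeightedHomogeneous wt f m → IsWeightedHomogeneous wt (D f) (m + e)) :
    D = 0 :=
  nh_aux (fun D η h1 h2 => exists_exp D η h1 h2) (fun D D' f h1 h2 h3 => smul_LN D D' f h1 h2 h3)
    etah_eq_zero_iff (fun x y z h g m h1 h2 h3 h4 => rigid_form x y z h g m h1 h2 h3 h4)
    (e.toNat + 1) e (by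
      have := Int.self_le_toNat e
      push_cast
      omega) D hLN hF hh

end Vale.Agent.P295.Full
end

section

open MvPolynomial

namespace Vale.Agent.P295.Full

/-- The surface `F = 0` is rigid, in the form: a locally nilpotent derivation of `ℂ[x,y,z]`
killing `F` is zero. -/
theorem rigid (D : Derivation ℂ A3 A3) (hD : IsLN D) (hF : D F = 0) : D = 0 := by
  by_contra h0
  obtain ⟨e, D', h1, h2, h3, h4⟩ := exists_homog D hD h0 hF
  exact h1 (no_homog e D' h2 h3 h4)

/-- No isomorphism of the modified ring `B` with a polynomial ring in four variables can take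
`t` to a variable. -/
theorem nontriv {S : Type} [CommRing S] [IsDomain S] [Algebra ℂ S] (B : Subalgebra ℂ S) (t : S)
    (htB : t ∈ B) (ht0 : t ≠ 0) (u : Polynomial A3 →ₐ[ℂ] S) (hu : Function.Injective u)
    (hut : u Polynomial.X = t) (huB : ∀ f, u f ∈ B)
    (hsat : ∀ s ∈ B, ∃ (n : ℕ) (f : Polynomial A3), t ^ n * s = u f)
    (_hdiv : ∀ s : S, t * s ∈ B → s ∈ B)
    (hF : ∃ d ∈ B, u (Polynomial.C F) = t * d) (π : S →ₐ[ℂ] P2) (hπt : π t = 0)
    (hπu : ∀ f : Polynomial A3, π (u f) = eta (f.coeff 0)) :
    ¬ ∃ (e : B ≃ₐ[ℂ] MvPolynomial (Fin 4) ℂ) (j : Fin 4), e ⟨t, htB⟩ = X j :=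
  nontriv_of rigid (fun D hD _ h => dvd_imp D hD h)
    (fun D D' f hf hD h => smul_LN D D' f hf hD h) (fun f h => (eta_eq_zero_iff f).1 h)
    B t htB ht0 u hu hut huB hsat hF π hπt hπu

end Vale.Agent.P295.Full
end

section

open MvPolynomial

namespace Vale.Agent.P295.Full

theorem main : ∃ n : ℕ, 4 ≤ n ∧ n ≤ 7 ∧ ∃ f : MvPolynomial (Fin n) ℂ,
    IsStableCoordinateOfOrder 1 f ∧ ¬ IsCoordinate f := by
  by_contra hcon
  have hS : ∀ n : ℕ, 4 ≤ n → n ≤ 7 → SCC n := by
    intro n h4 h7 f hf
    by_contra hf'
    exact hcon ⟨n, h4, h7, f, hf, hf'⟩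
  obtain ⟨B, htB, u, π, e, hu, hut, huB, hsat, hdiv, hF, hπt, hπu, he⟩ := exists_B
  refine nontriv B (X 0) htB (X_ne_zero 0) u hu hut huB hsat hdiv hF π hπt hπu ?_
  exact descend ⟨X 0, htB⟩ e he (hS 7 (by norm_num) (by norm_num)) (hS 6 (by norm_num) (by norm_num))
    (hS 5 (by norm_num) (by norm_num)) (hS 4 (by norm_num) (by norm_num))

end Vale.Agent.P295.Full
end
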